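import Vale.Agent.P099.H184.Cx.Meas

set_option linter.all false

open MeasureTheory Set Filter Topology

namespace Vale.Agent.P099

namespace Cx

variable {S : Type} {X : Cx S} [MeasurableSpace S] [MeasurableSingletonClass S]

lemma measurePreserving_tl [Finite S] (w : List (Fin 3)) :
    MeasurePreserving (fun s => X.tl s w) Measure.count Measure.count := by
  refine ⟨measurable_of_countable _, ?_⟩
  · ext B hB
    rw [Measure.map_apply (measurable_of_countable _) hB]
    have h1 : (fun s => X.tl s w) '' ((fun s => X.tl s w) ⁻¹' B) = B :=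
      image_preimage_eq B (Finite.injective_iff_surjective.1 (tl_injective w))
    conv_rhs => rw [← h1]
    rw [Measure.count_injective_image (tl_injective w)]

lemma measurePreserving_NW [Finite S] (t : ℝ) (w : List (Fin 3)) :
    MeasurePreserving (X.NW t w) (mL S) (mL S) := by
  have h1 : Measurable (X.NW t w) := measurable_NW t w
  refine (measurePreserving_tl (X := X) w).skew_product
    (g := fun s (q : ℂ × ℂ) => (X.GX s w (q.1 + t • q.2), X.GU s w q.2)) h1.snd ?_
  refine ae_of_all _ fun s => ?_
  exact (((X.measurePreserving_GX s w).prod (X.measurePreserving_GU s w)).comp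
    (Triangle.measurePreserving_shift t)).map_eq

lemma measurableEmbedding_NW [Finite S] (t : ℝ) (w : List (Fin 3)) :
    MeasurableEmbedding (X.NW t w) :=
  (measurable_NW t w).measurableEmbedding (NW_injective t w)

lemma measurableSet_eq [Finite S] {α : Type*} [MeasurableSpace α] {f g : α → S × ℂ × ℂ}
    (hf : Measurable f) (hg : Measurable g) : MeasurableSet {x | f x = g x} := by
  have h1 : {x | f x = g x} = {x | (f x).1 = (g x).1} ∩ {x | (f x).2 = (g x).2} := by
    ext x
    simp only [mem_ofPred_eq, mem_inter_iff, Prod.ext_iff]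
  rw [h1]
  exact (measurableSet_eq_fun hf.fst hg.fst).inter (measurableSet_eq_fun hf.snd hg.snd)

lemma ae_lam_ne [Finite S] (X : Cx S) (t : ℝ) (w : List (Fin 3)) (i : Fin 3) :
    ∀ᵐ p ∂(mL S), (X.T (X.NW t w p).1).lam i (X.NW t w p).2.1 ≠ 0 := by
  have h1 : ∀ᵐ p ∂(mL S), (X.T p.1).lam i p.2.1 ≠ 0 := by
    rw [mL_eq_sum, Measure.ae_sum_iff]
    intro s
    rw [(measurableEmbedding_prodMk_left s).ae_map_iff]
    have h2 : ∀ᵐ y ∂(volume : Measure ℂ), (X.T s).lam i y ≠ 0 := by
      rw [ae_iff]
      simp only [not_not]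
      exact (X.T s).volume_lam_eq_zeroF i
    exact Measure.quasiMeasurePreserving_fst.ae h2
  exact (measurePreserving_NW (X := X) t w).quasiMeasurePreserving.ae h1

/-- There is a measurable flow which agrees with `traj` on a measurable conull set of good
states. -/
lemma exists_measurable_flow [Finite S] (X : Cx S) :
    ∃ (G : Set (S × ℂ × ℂ)) (Ψ : ℝ → S × ℂ × ℂ → S × ℂ × ℂ),
    MeasurableSet G ∧ (∀ᵐ p ∂((mL S).restrict X.phase), p ∈ G) ∧
    (∀ p ∈ G, p ∈ X.phase ∧ X.Good p ∧ X.Good (flip p)) ∧
    Measurable (fun z : ℝ × (S × ℂ × ℂ) => Ψ z.1 z.2) ∧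
    (∀ p ∈ G, ∀ t, Ψ t p = X.traj t p) := by
  classical
  have hgood : ∀ᵐ p ∂((mL S).restrict X.phase), p ∈ X.phase ∧ X.Good p ∧ X.Good (flip p) := by
    rw [ae_phase_iff]
    exact fun s => X.ae_good s
  obtain ⟨G, hG, hGm, hGp⟩ := hgood.exists_measurable_mem
  obtain ⟨F, hF, hFe⟩ := exists_measurable_fw X
  refine ⟨G, fun t p => if p ∈ G then (if 0 ≤ t then F (t, p) else flip (F (-t, flip p))) else p,
    hGm, hG, hGp, ?_, ?_⟩
  · refine Measurable.ite (hGm.preimage measurable_snd) ?_ measurable_snd
    refine Measurable.ite (measurableSet_le measurable_const measurable_fst) ?_ ?_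
    · exact hF
    · exact measurable_flip.comp (hF.comp (measurable_fst.neg.prodMk
        (measurable_flip.comp measurable_snd)))
  · intro p hp t
    obtain ⟨h1, h2, h3⟩ := hGp p hp
    simp only [if_pos hp, traj]
    split_ifs with ht
    · exact hFe p t h2 ht
    · rw [hFe (flip p) (-t) h3 (by linarith only [ht])]

end Cx

end Vale.Agent.P099
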