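import Vale.Agent.P099.H184.Cx.Traj

set_option linter.all false

open MeasureTheory Set Filter Topology

namespace Vale.Agent.P099

namespace Cx

variable {S : Type} [MeasurableSpace S] (X : Cx S)

/-- the phase space: the position lies in the open triangle -/
def phase : Set (S × ℂ × ℂ) := {p | p.2.1 ∈ (X.T p.1).table}

/-- Uniform position in the table, uniform direction. -/
noncomputable def mu : Measure (S × ℂ × ℂ) :=
  ProbabilityTheory.cond ((Measure.count : Measure S).prod ((volume : Measure ℂ).prod nu)) X.phase

/-- `Φ` is the billiard flow: almost every phase point moves along a trajectory. -/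
def IsBilliardFlow (Φ : ℝ → S × ℂ × ℂ → S × ℂ × ℂ) : Prop :=
  ∀ᵐ p ∂X.mu, Φ 0 p = p ∧ X.IsTrajectory (fun t => Φ t p)

end Cx

end Vale.Agent.P099
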