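import Vale.Agent.P099.H184.Cx.Seq
import Vale.Agent.P099.H184.Cx.FlowDefs

set_option linter.all false

open MeasureTheory Set Filter Topology

namespace Vale.Agent.P099

namespace Cx

variable {S : Type} {X : Cx S}

/-! ### the flow in terms of the unfoldings -/

lemma tl_append (s : S) (w : List (Fin 3)) (i : Fin 3) :
    X.tl s (w ++ [i]) = X.σ (X.tl s w) i := by
  induction w generalizing s with
  | nil => rfl
  | cons j w ih => exact ih _

lemma GX_append (s : S) (w : List (Fin 3)) (i : Fin 3) (x : ℂ) :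
    X.GX s (w ++ [i]) x = X.R (X.tl s w) i (X.GX s w x) := by
  induction w generalizing s x with
  | nil => rfl
  | cons j w ih => exact ih _ _

lemma GU_append (s : S) (w : List (Fin 3)) (i : Fin 3) (u : ℂ) :
    X.GU s (w ++ [i]) u = X.D (X.tl s w) i (X.GU s w u) := by
  induction w generalizing s u with
  | nil => rfl
  | cons j w ih => exact ih _ _

lemma GU_neg (s : S) (w : List (Fin 3)) (u : ℂ) : X.GU s w (-u) = - X.GU s w u := by
  induction w generalizing s u with
  | nil => rfl
  | cons j w ih =>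
    change X.GU (X.σ s j) w (X.D s j (-u)) = - X.GU (X.σ s j) w (X.D s j u)
    rw [X.D_neg, ih]

lemma tl_injective (w : List (Fin 3)) : Function.Injective (fun s => X.tl s w) := by
  induction w with
  | nil => exact fun _ _ h => h
  | cons j w ih =>
    intro a b h
    have h1 : X.σ a j = X.σ b j := ih h
    rw [← X.invol a j, h1, X.invol]

lemma GX_injective (s : S) (w : List (Fin 3)) : Function.Injective (X.GX s w) := by
  induction w generalizing s with
  | nil => exact Function.injective_id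
  | cons j w ih => exact (ih _).comp (Function.LeftInverse.injective (X.R_R s j))

lemma GU_injective (s : S) (w : List (Fin 3)) : Function.Injective (X.GU s w) := by
  induction w generalizing s with
  | nil => exact Function.injective_id
  | cons j w ih => exact (ih _).comp (Function.LeftInverse.injective (X.D_D s j))

/-- the unfolded motion -/
noncomputable def NW (X : Cx S) (t : ℝ) (w : List (Fin 3)) (p : S × ℂ × ℂ) : S × ℂ × ℂ :=
  (X.tl p.1 w, X.GX p.1 w (p.2.1 + t • p.2.2), X.GU p.1 w p.2.2)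

lemma NW_injective (t : ℝ) (w : List (Fin 3)) : Function.Injective (X.NW t w) := by
  rintro ⟨a, x, u⟩ ⟨b, y, v⟩ h
  rw [NW, NW, Prod.mk.injEq, Prod.mk.injEq] at h
  obtain ⟨h0, h1, h2⟩ := h
  have h3 : a = b := tl_injective w h0
  subst h3
  have h4 : u = v := GU_injective a w h2
  subst h4
  have h5 : x + t • u = y + t • u := GX_injective a w h1
  rw [add_right_cancel h5]

lemma exists_word {p : S × ℂ × ℂ} (h : X.Good p) (n : ℕ) : ∃ w, (X.sq p n).1 = X.tl p.1 w ∧
    (X.sq p n).2.2 = X.GU p.1 w p.2.2 ∧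
    (X.sq p n).2.1 = X.GX p.1 w (p.2.1 + X.tt p n • p.2.2) := by
  induction n with
  | zero => exact ⟨[], rfl, rfl, by rw [tt_zero, zero_smul, add_zero]; rfl⟩
  | succ n ih =>
    obtain ⟨w, h0, h1, h2⟩ := ih
    refine ⟨w ++ [X.ex (X.sq p n)], ?_, ?_, ?_⟩
    · rw [sq_succ_tile, tl_append, h0]
    · rw [sq_succ_snd, GU_append, h1, h0]
    · have h3 : X.R (X.sq p n).1 (X.ex (X.sq p n)) (X.sq p (n + 1)).2.1 =
          (X.sq p (n + 1)).2.1 := X.R_side (Cx.E.mem_side X (h.sq n).E)
      rw [← h3, sq_succ_fst, GX_append, tt_succ, h1, h2, h0, add_smul,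
        ← add_assoc, X.GX_add p.1 w (p.2.1 + X.tt p n • p.2.2)]

lemma exists_word_fw [Finite S] {p : S × ℂ × ℂ} (h : X.Good p) {t : ℝ} (ht : 0 ≤ t) :
    ∃ w, X.fw p t = X.NW t w p := by
  obtain ⟨n, h1, h2⟩ := h.exists_Ico ht
  obtain ⟨w, h0, h3, h4⟩ := exists_word h n
  refine ⟨w, ?_⟩
  rw [h.fw_eq h1 h2, NW, h3, h4, h0, ← X.GX_add, add_assoc, ← add_smul]
  congr 5
  ring

lemma exists_word_traj [Finite S] {p : S × ℂ × ℂ} (h1 : X.Good p) (h2 : X.Good (flip p))
    (t : ℝ) : ∃ w, X.traj t p = X.NW t w p := by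
  rcases le_or_gt 0 t with ht | ht
  · rw [traj, if_pos ht]
    exact exists_word_fw h1 ht
  · rw [traj, if_neg (not_le.2 ht)]
    obtain ⟨w, hw⟩ := exists_word_fw h2 (neg_nonneg.2 ht.le)
    refine ⟨w, ?_⟩
    rw [hw]
    simp only [NW, flip, GU_neg, neg_neg, smul_neg, neg_smul]

variable [MeasurableSpace S] [MeasurableSingletonClass S]

lemma measurable_prod' [Countable S] {β γ : Type*} [MeasurableSpace β] [MeasurableSpace γ]
    {f : S × β → γ} (h : ∀ s, Measurable fun b => f (s, b)) : Measurable f :=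
  measurable_from_prod_countable_right h

/-! ### measurability -/

lemma measurable_NW [Countable S] (t : ℝ) (w : List (Fin 3)) : Measurable (X.NW t w) := by
  refine measurable_prod' fun s => ?_
  have h1 := (X.continuous_GX s w).measurable
  have h2 := (X.continuous_GU s w).measurable
  have h3 : Measurable (fun q : ℂ × ℂ => q.1 + t • q.2) :=
    measurable_fst.add (measurable_snd.const_smul t)
  change Measurable (fun q : ℂ × ℂ => (X.tl s w, X.GX s w (q.1 + t • q.2), X.GU s w q.2))
  exact measurable_const.prodMk ((h1.comp h3).prodMk (h2.comp measurable_snd))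

lemma measurable_hitT [Countable S] (i : Fin 3) : Measurable (X.hitT i) := by
  refine measurable_prod' fun s => ?_
  exact Triangle.measurable_hitT (T := X.T s) i

lemma measurable_hit [Countable S] (i : Fin 3) : Measurable (X.hit i) := by
  refine measurable_prod' fun s => ?_
  have h1 := Triangle.measurable_hitT (T := X.T s) i
  have h2 : Measurable (fun q : ℂ × ℂ => X.D s i q.2) :=
    (X.continuous_D s i).measurable.comp measurable_snd
  have h3 : Measurable (fun q : ℂ × ℂ => q.1 + (X.T s).hitT i q • q.2) :=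
    measurable_fst.add (h1.smul measurable_snd)
  change Measurable (fun q : ℂ × ℂ => (X.σ s i, q.1 + (X.T s).hitT i q • q.2, X.D s i q.2))
  exact measurable_const.prodMk (h3.prodMk h2)

lemma measurableSet_E [Countable S] (i : Fin 3) : MeasurableSet {p : S × ℂ × ℂ | X.E i p} := by
  have h1 : {p : S × ℂ × ℂ | X.E i p} =
      ⋃ s, Prod.fst ⁻¹' {s} ∩ Prod.snd ⁻¹' {q : ℂ × ℂ | (X.T s).E i q} := by
    ext p
    simp only [mem_ofPred_eq, mem_iUnion, mem_inter_iff, mem_preimage, mem_singleton_iff]
    constructor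
    · intro h
      exact ⟨p.1, rfl, h⟩
    · rintro ⟨s, rfl, h⟩
      exact h
  rw [h1]
  refine MeasurableSet.iUnion fun s => ?_
  exact (measurable_fst (measurableSet_singleton s)).inter
    (measurable_snd (Triangle.measurableSet_E (T := X.T s) i))

lemma measurableSet_phase [Countable S] : MeasurableSet X.phase := by
  have h1 : X.phase = ⋃ s, Prod.fst ⁻¹' {s} ∩ Prod.snd ⁻¹' (Prod.fst ⁻¹' (X.T s).table) := by
    ext p
    simp only [phase, mem_ofPred_eq, mem_iUnion, mem_inter_iff, mem_preimage, mem_singleton_iff]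
    constructor
    · intro h
      exact ⟨p.1, rfl, h⟩
    · rintro ⟨s, rfl, h⟩
      exact h
  rw [h1]
  refine MeasurableSet.iUnion fun s => ?_
  exact (measurable_fst (measurableSet_singleton s)).inter
    (measurable_snd (measurable_fst (X.T s).isOpen_table.measurableSet))

open Classical in
/-- measurable version of the crossing map -/
noncomputable def hm (X : Cx S) (p : S × ℂ × ℂ) : S × ℂ × ℂ :=
  if X.E 0 p then X.hit 0 p else if X.E 1 p then X.hit 1 p else X.hit 2 p

open Classical in
/-- measurable version of the flight time -/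
noncomputable def hT (X : Cx S) (p : S × ℂ × ℂ) : ℝ :=
  if X.E 0 p then X.hitT 0 p else if X.E 1 p then X.hitT 1 p else X.hitT 2 p

lemma measurable_hm [Countable S] : Measurable X.hm := by
  classical
  exact Measurable.ite (measurableSet_E 0) (measurable_hit 0)
    (Measurable.ite (measurableSet_E 1) (measurable_hit 1) (measurable_hit 2))

lemma measurable_hT [Countable S] : Measurable X.hT := by
  classical
  exact Measurable.ite (measurableSet_E 0) (measurable_hitT 0)
    (Measurable.ite (measurableSet_E 1) (measurable_hitT 1) (measurable_hitT 2))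

omit [MeasurableSpace S] [MeasurableSingletonClass S] in
lemma Good.hm_eq {p : S × ℂ × ℂ} (h : X.Good p) : X.hm p = X.hit (X.ex p) p := by
  have h1 := h.E
  unfold Cx.hm
  generalize X.ex p = i at h1
  split_ifs with h2 h3
  · rw [Cx.E.unique X h.adm h1 h2]
  · rw [Cx.E.unique X h.adm h1 h3]
  · fin_cases i
    · exact absurd h1 h2
    · exact absurd h1 h3
    · rfl

omit [MeasurableSpace S] [MeasurableSingletonClass S] in
lemma Good.hT_eq {p : S × ℂ × ℂ} (h : X.Good p) : X.hT p = X.hitT (X.ex p) p := by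
  have h1 := h.E
  unfold Cx.hT
  generalize X.ex p = i at h1
  split_ifs with h2 h3
  · rw [Cx.E.unique X h.adm h1 h2]
  · rw [Cx.E.unique X h.adm h1 h3]
  · fin_cases i
    · exact absurd h1 h2
    · exact absurd h1 h3
    · rfl

omit [MeasurableSpace S] [MeasurableSingletonClass S] in
lemma Good.sq_eq_iterate {p : S × ℂ × ℂ} (h : X.Good p) (n : ℕ) : X.hm^[n] p = X.sq p n := by
  induction n with
  | zero => rfl
  | succ n ih => rw [Function.iterate_succ_apply', ih, (h.sq n).hm_eq]; rfl

/-- measurable version of the crossing times -/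
noncomputable def tm' (X : Cx S) (n : ℕ) (p : S × ℂ × ℂ) : ℝ :=
  ∑ m ∈ Finset.range n, X.hT (X.hm^[m] p)

lemma measurable_tm' [Countable S] (n : ℕ) : Measurable (X.tm' n) := by
  refine Finset.measurable_fun_sum _ fun m _ => ?_
  exact measurable_hT.comp (measurable_hm.iterate m)

omit [MeasurableSpace S] [MeasurableSingletonClass S] in
lemma Good.tm'_eq {p : S × ℂ × ℂ} (h : X.Good p) (n : ℕ) : X.tm' n p = X.tt p n := by
  refine Finset.sum_congr rfl fun m _ => ?_
  rw [h.sq_eq_iterate, (h.sq m).hT_eq]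
  rfl

lemma exists_measurable_fw [Finite S] (X : Cx S) :
    ∃ F : ℝ × (S × ℂ × ℂ) → S × ℂ × ℂ, Measurable F ∧
    ∀ p t, X.Good p → 0 ≤ t → F (t, p) = X.fw p t := by
  classical
  let P : ℕ → ℝ × (S × ℂ × ℂ) → Prop := fun n z =>
    z.1 < X.tm' (n + 1) z.2 ∨ ∀ m, X.tm' (m + 1) z.2 ≤ z.1
  let f : ℕ → ℝ × (S × ℂ × ℂ) → S × ℂ × ℂ := fun n z =>
    ((X.hm^[n] z.2).1, (X.hm^[n] z.2).2.1 + (z.1 - X.tm' n z.2) • (X.hm^[n] z.2).2.2,
      (X.hm^[n] z.2).2.2)
  have hp : ∀ n, MeasurableSet {z | P n z} := by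
    intro n
    have h1 : MeasurableSet {z : ℝ × (S × ℂ × ℂ) | z.1 < X.tm' (n + 1) z.2} :=
      measurableSet_lt measurable_fst ((measurable_tm' _).comp measurable_snd)
    have h2 : MeasurableSet {z : ℝ × (S × ℂ × ℂ) | ∀ m, X.tm' (m + 1) z.2 ≤ z.1} := by
      have : {z : ℝ × (S × ℂ × ℂ) | ∀ m, X.tm' (m + 1) z.2 ≤ z.1} =
          ⋂ m, {z : ℝ × (S × ℂ × ℂ) | X.tm' (m + 1) z.2 ≤ z.1} := by
        ext z; simp only [mem_ofPred_eq, mem_iInter]
      rw [this]
      exact MeasurableSet.iInter fun m =>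
        measurableSet_le ((measurable_tm' _).comp measurable_snd) measurable_fst
    exact h1.union h2
  have hf : ∀ n, Measurable (f n) := by
    intro n
    have h1 : Measurable (fun z : ℝ × (S × ℂ × ℂ) => X.hm^[n] z.2) :=
      (measurable_hm.iterate n).comp measurable_snd
    have h2 : Measurable (fun z : ℝ × (S × ℂ × ℂ) => X.tm' n z.2) :=
      (measurable_tm' n).comp measurable_snd
    exact h1.fst.prodMk ((h1.snd.fst.add ((measurable_fst.sub h2).smul h1.snd.snd)).prodMk
      h1.snd.snd)
  have hex : ∀ z, ∃ n, P n z := by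
    intro z
    by_cases h : ∃ m, z.1 < X.tm' (m + 1) z.2
    · obtain ⟨m, hm⟩ := h
      exact ⟨m, Or.inl hm⟩
    · refine ⟨0, Or.inr ?_⟩
      intro m
      by_contra hm
      exact h ⟨m, not_le.1 hm⟩
  refine ⟨_, Measurable.find hf hp hex, ?_⟩
  intro s t hs ht
  obtain ⟨n, h1, h2⟩ := hs.exists_Ico ht
  have hfind : Nat.find (hex (t, s)) = n := by
    rw [Nat.find_eq_iff]
    constructor
    · left
      change t < X.tm' (n + 1) s
      rw [hs.tm'_eq]
      exact h2
    · intro m hm hpm
      rcases hpm with h3 | h3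
      · change t < X.tm' (m + 1) s at h3
        rw [hs.tm'_eq] at h3
        have h4 : X.tt s (m + 1) ≤ X.tt s n := hs.tt_strictMono.monotone (by omega)
        linarith only [h1, h3, h4]
      · have h4 : X.tm' (n + 1) s ≤ t := h3 n
        rw [hs.tm'_eq] at h4
        linarith only [h2, h4]
  change f (Nat.find (hex (t, s))) (t, s) = _
  rw [hfind, hs.fw_eq h1 h2]
  change ((X.hm^[n] s).1, (X.hm^[n] s).2.1 + (t - X.tm' n s) • (X.hm^[n] s).2.2,
    (X.hm^[n] s).2.2) = _
  rw [hs.sq_eq_iterate, hs.tm'_eq]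

lemma measurable_flip : Measurable (flip : S × ℂ × ℂ → S × ℂ × ℂ) :=
  measurable_fst.prodMk (measurable_snd.fst.prodMk measurable_snd.snd.neg)

end Cx

end Vale.Agent.P099
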