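import Vale.Agent.P099.H184.Cx.Exist

set_option linter.all false

open MeasureTheory Set Filter Topology

namespace Vale.Agent.P099

namespace Cx

variable {S : Type} {X : Cx S} [MeasurableSpace S]

lemma mu_eq (X : Cx S) : X.mu = (mL S X.phase)⁻¹ • ((mL S).restrict X.phase) := by
  rw [mu, ProbabilityTheory.cond, mL]

variable [MeasurableSingletonClass S]

lemma mL_phase_lt_top [Finite S] (X : Cx S) : mL S X.phase < ⊤ := by
  have h1 := measure_lt_top ((mL S).restrict X.phase) univ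
  rwa [Measure.restrict_apply_univ] at h1

lemma mL_phase_pos [Finite S] [Nonempty S] (X : Cx S) : 0 < mL S X.phase := by
  obtain ⟨s⟩ := (inferInstance : Nonempty S)
  have h1 : ({s} : Set S) ×ˢ ((X.T s).table ×ˢ (univ : Set ℂ)) ⊆ X.phase := by
    rintro ⟨a, x, u⟩ ⟨ha, hx, -⟩
    rw [mem_singleton_iff] at ha
    subst ha
    exact hx
  refine lt_of_lt_of_le ?_ (measure_mono h1)
  rw [mL, Measure.prod_prod, Measure.prod_prod, Measure.count_singleton, one_mul, measure_univ,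
    mul_one]
  exact (X.T s).volume_table_pos

instance [Finite S] [Nonempty S] : IsProbabilityMeasure X.mu := by
  unfold mu
  exact ProbabilityTheory.cond_isProbabilityMeasure_of_finite X.mL_phase_pos.ne'
    X.mL_phase_lt_top.ne

lemma ae_mu_iff [Finite S] {P : S × ℂ × ℂ → Prop} : (∀ᵐ p ∂X.mu, P p) ↔
    ∀ s, ∀ᵐ q ∂((volume.restrict (X.T s).table).prod nu), P (s, q) := by
  rw [mu_eq, Measure.ae_ennreal_smul_measure_iff (ENNReal.inv_ne_zero.mpr X.mL_phase_lt_top.ne),
    ae_phase_iff]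

lemma ae_prod_mu_iff [Finite S] {Ω : Type} [MeasurableSpace Ω] {m : Measure Ω}
    [IsProbabilityMeasure m] {P : (S × ℂ × ℂ) × Ω → Prop} :
    (∀ᵐ z ∂(X.mu.prod m), P z) ↔
      ∀ s, ∀ᵐ p ∂((volume.restrict (X.T s).table).prod (nu.prod m)),
        P ((s, p.1, p.2.1), p.2.2) := by
  rw [mu_eq, Measure.prod_smul_left,
    Measure.ae_ennreal_smul_measure_iff (ENNReal.inv_ne_zero.mpr X.mL_phase_lt_top.ne),
    ae_prod_phase_iff]

/-- points of the phase space -/
lemma ae_mem_phase [Finite S] : ∀ᵐ p ∂X.mu, p ∈ X.phase := by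
  rw [ae_mu_iff]
  exact fun s => Measure.quasiMeasurePreserving_fst.ae
    (ae_restrict_mem (X.T s).isOpen_table.measurableSet)

/-- A measurable measure preserving version of the billiard flow, given by `traj`. -/
theorem exists_good_flow' [Finite S] (X : Cx S) : ∃ Ψ : ℝ → S × ℂ × ℂ → S × ℂ × ℂ,
    PFlow X.mu Ψ ∧ X.IsBilliardFlow Ψ ∧
    (∀ Φ : ℝ → S × ℂ × ℂ → S × ℂ × ℂ, X.IsBilliardFlow Φ → ∀ t, Φ t =ᵐ[X.mu] Ψ t) ∧
    ∀ᵐ p ∂X.mu, p ∈ X.phase ∧ X.Good p ∧ X.Good (flip p) ∧ ∀ t, Ψ t p = X.traj t p := by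
  obtain ⟨G, Ψ, hGm, hG, hGp, hΨm, hΨ⟩ := exists_measurable_flow X
  set M : Measure (S × ℂ × ℂ) := (mL S).restrict X.phase with hM
  have hKm : MeasurableSet X.phase := measurableSet_phase
  have hMfin : IsFiniteMeasure M := by
    rw [hM]
    infer_instance
  have hΨtm : ∀ t, Measurable (Ψ t) := fun t =>
    hΨm.comp (measurable_const.prodMk measurable_id)
  -- the trajectories
  have htraj : ∀ p ∈ G, X.IsTrajectory (fun t => Ψ t p) := by
    intro p hp
    obtain ⟨h1, h2, h3⟩ := hGp p hp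
    have h4 : (fun t => Ψ t p) = fun t => X.traj t p := by
      funext t; exact hΨ p hp t
    rw [h4]
    exact isTrajectory_traj h1 h2 h3
  have hzero : ∀ p ∈ G, Ψ 0 p = p := by
    intro p hp
    obtain ⟨h1, h2, h3⟩ := hGp p hp
    rw [hΨ p hp, traj, if_pos le_rfl, h2.fw_small le_rfl (h2.tau_pos 0)]
    simp
  have hword : ∀ p ∈ G, ∀ t, ∃ w, Ψ t p = X.NW t w p := by
    intro p hp t
    obtain ⟨h1, h2, h3⟩ := hGp p hp
    rw [hΨ p hp]
    exact exists_word_traj h2 h3 t
  -- at a given time almost all points are in the open tiles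
  have htab : ∀ t, ∀ᵐ p ∂M, Ψ t p ∈ X.phase := by
    intro t
    have h1 : ∀ᵐ p ∂M, ∀ w : List (Fin 3), ∀ i : Fin 3,
        (X.T (X.NW t w p).1).lam i (X.NW t w p).2.1 ≠ 0 := by
      rw [ae_all_iff]
      intro w
      rw [ae_all_iff]
      intro i
      exact ae_restrict_of_ae (ae_lam_ne X t w i)
    filter_upwards [hG, h1] with p hp h2
    rcases htraj p hp t with ⟨h3, _⟩ | ⟨s, i, u, hs, h3, _⟩
    · exact h3
    · exfalso
      obtain ⟨w, hw⟩ := hword p hp t
      apply h2 w i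
      rw [← hw]
      have h4 : (Ψ t p).2.1 ∈ (X.T (Ψ t p).1).side i := by
        rcases hs with hs | hs
        · rw [hs]; exact h3
        · rw [hs, X.side_nb]; exact h3
      exact (((X.T (Ψ t p).1).mem_side_iff i _).1 h4).1
  -- measure preservation
  have hmp : ∀ t, MeasurePreserving (Ψ t) M M := by
    intro t
    refine ⟨hΨtm t, ?_⟩
    have hle : M.map (Ψ t) ≤ M := by
      refine Measure.le_iff.2 fun B hB => ?_
      rw [Measure.map_apply (hΨtm t) hB]
      set C : Set (S × ℂ × ℂ) := G ∩ (Ψ t) ⁻¹' X.phase with hC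
      have hSm : MeasurableSet C := hGm.inter ((hΨtm t) hKm)
      have h1 : M (Ψ t ⁻¹' B) = M (C ∩ Ψ t ⁻¹' B) := by
        apply measure_congr
        filter_upwards [hG, htab t] with p h2 h3
        have h4 : p ∈ C := ⟨h2, h3⟩
        apply propext
        exact ⟨fun h => ⟨h4, h⟩, fun h => h.2⟩
      have h2 : M (C ∩ Ψ t ⁻¹' B) ≤ mL S (C ∩ Ψ t ⁻¹' B) := by
        rw [hM]
        exact Measure.restrict_apply_le _ _
      have h3 : M B = mL S (X.phase ∩ B) := by
        rw [hM, Measure.restrict_apply hB, inter_comm]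
      rw [h1, h3]
      refine h2.trans ?_
      refine measure_inter_preimage_le (hΨtm t) hSm ?_ (fun x hx => hx.2) (X.NW t)
        (fun w => measurableEmbedding_NW t w)
        (fun w => measurePreserving_NW t w) (fun x hx => hword x hx.1 t) ?_ hB
      · intro p hp q hq hpq
        have h4 := (htraj p hp.1).shift X t
        have h5 := (htraj q hq.1).shift X t
        have h6 : (Ψ (0 + t) p).2.1 ∈ (X.T (Ψ (0 + t) p).1).table := by
          rw [zero_add]; exact hp.2
        have h7 : Ψ (0 + t) p = Ψ (0 + t) q := by rw [zero_add]; exact hpq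
        have h8 : (Ψ (-t + t) p).2.1 ∈ (X.T (Ψ (-t + t) p).1).table := by
          rw [neg_add_cancel, hzero p hp.1]; exact (hGp p hp.1).1
        have h9 : Ψ (-t + t) p = Ψ (-t + t) q :=
          IsTrajectory.same X h4 h5 (a := 0) h6 h7 (t := -t) h8
        rw [neg_add_cancel, hzero p hp.1, hzero q hq.1] at h9
        exact h9
      · intro w
        exact measurableSet_eq (hΨtm t) (measurable_NW t w)
    have huniv : M.map (Ψ t) univ = M univ := by
      rw [Measure.map_apply (hΨtm t) MeasurableSet.univ, preimage_univ]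
    have : IsFiniteMeasure (M.map (Ψ t)) := Measure.isFiniteMeasure_map M (Ψ t)
    exact Measure.eq_of_le_of_measure_univ_eq hle huniv
  have haemu : ∀ {P : S × ℂ × ℂ → Prop}, (∀ᵐ p ∂M, P p) → ∀ᵐ p ∂X.mu, P p := by
    intro P hP
    rw [mu_eq]
    exact Measure.ae_smul_measure hP _
  refine ⟨Ψ, ⟨hΨm, ?_, ?_, ?_⟩, ?_, ?_, ?_⟩
  · intro t
    rw [mu_eq]
    exact (hmp t).smul_measure _
  · intro s t
    apply haemu
    have h1 : ∀ᵐ p ∂M, Ψ t p ∈ G := (hmp t).quasiMeasurePreserving.ae hG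
    have h2 : ∀ᵐ p ∂M, Ψ s (Ψ t p) ∈ X.phase :=
      (hmp t).quasiMeasurePreserving.ae (htab s)
    filter_upwards [hG, h1, h2] with p hp hq h3
    have h4 := (htraj p hp).shift X t
    have h5 := htraj _ hq
    have h6 : (Ψ 0 (Ψ t p)).2.1 ∈ (X.T (Ψ 0 (Ψ t p)).1).table := by
      rw [hzero _ hq]; exact (hGp _ hq).1
    have h7 : Ψ 0 (Ψ t p) = Ψ (0 + t) p := by rw [hzero _ hq, zero_add]
    exact (IsTrajectory.same X h5 h4 (a := 0) h6 h7 (t := s) h3).symm
  · apply haemu
    filter_upwards [hG] with p hp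
    exact hzero p hp
  · apply haemu
    filter_upwards [hG] with p hp
    exact ⟨hzero p hp, htraj p hp⟩
  · intro Φ hΦ t
    filter_upwards [hΦ, haemu hG, haemu (htab t)] with p h1 hp h3
    have h6 : (Ψ 0 p).2.1 ∈ (X.T (Ψ 0 p).1).table := by rw [hzero _ hp]; exact (hGp _ hp).1
    have h7 : Ψ 0 p = Φ 0 p := by rw [hzero _ hp, h1.1]
    exact (IsTrajectory.same X (htraj p hp) h1.2 (a := 0) h6 h7 (t := t) h3).symm
  · apply haemu
    filter_upwards [hG] with p hp
    obtain ⟨h1, h2, h3⟩ := hGp p hp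
    exact ⟨h1, h2, h3, hΨ p hp⟩

/-- A measurable measure preserving version of the billiard flow. -/
theorem exists_good_flow [Finite S] (X : Cx S) : ∃ Ψ : ℝ → S × ℂ × ℂ → S × ℂ × ℂ,
    PFlow X.mu Ψ ∧ X.IsBilliardFlow Ψ ∧
    ∀ Φ : ℝ → S × ℂ × ℂ → S × ℂ × ℂ, X.IsBilliardFlow Φ → ∀ t, Φ t =ᵐ[X.mu] Ψ t := by
  obtain ⟨Ψ, h1, h2, h3, -⟩ := exists_good_flow' X
  exact ⟨Ψ, h1, h2, h3⟩

end Cx

end Vale.Agent.P099
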