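import Vale.Agent.P099.H184.Cx.GoodFlow

set_option linter.all false

open MeasureTheory Set Filter Topology

namespace Vale.Agent.P099

namespace Cx

variable {S : Type} {X : Cx S} [MeasurableSpace S] [MeasurableSingletonClass S]
variable {Ω : Type} [MeasurableSpace Ω] {m : Measure Ω} [IsProbabilityMeasure m]

lemma ae_iff_of_null {α : Type*} [MeasurableSpace α] {μ : Measure α} {A B : Set α}
    (h : μ (symmDiff A B) = 0) : ∀ᵐ p ∂μ, (p ∈ A ↔ p ∈ B) := by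
  rw [measure_eq_zero_iff_ae_notMem] at h
  filter_upwards [h] with p hp
  rw [mem_symmDiff] at hp
  tauto

lemma null_of_ae_iff {α : Type*} [MeasurableSpace α] {μ : Measure α} {A B : Set α}
    (h : ∀ᵐ p ∂μ, (p ∈ A ↔ p ∈ B)) : μ (symmDiff A B) = 0 := by
  rw [measure_eq_zero_iff_ae_notMem]
  filter_upwards [h] with p hp
  rw [mem_symmDiff]
  tauto

/-- a set invariant under a product with the flow: free flights -/
lemma flow_free [Finite S] [Nonempty S] {Φ : ℝ → S × ℂ × ℂ → S × ℂ × ℂ}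
    (hΦ : X.IsBilliardFlow Φ) {Θ : ℝ → Ω → Ω} {A : Set ((S × ℂ × ℂ) × Ω)} {t : ℝ} (ht : 0 < t)
    (hA : (X.mu.prod m) (symmDiff ((fun z => (Φ t z.1, Θ t z.2)) ⁻¹' A) A) = 0) (s : S) :
    ∀ᵐ p ∂((volume.restrict (X.T s).table).prod (nu.prod m)),
      p.1 + t • p.2.1 ∈ (X.T s).table →
      (((s, p.1 + t • p.2.1, p.2.1), Θ t p.2.2) ∈ A ↔ ((s, p.1, p.2.1), p.2.2) ∈ A) := by
  have h1 := ae_iff_of_null hA
  have h2 : ∀ᵐ z ∂(X.mu.prod m), Φ 0 z.1 = z.1 ∧ X.IsTrajectory (fun t => Φ t z.1) :=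
    Measure.quasiMeasurePreserving_fst.ae hΦ
  have h3 : ∀ᵐ z ∂(X.mu.prod m), z.1 ∈ X.phase :=
    Measure.quasiMeasurePreserving_fst.ae ae_mem_phase
  have h4 : ∀ᵐ z ∂(X.mu.prod m), z.1.2.1 + t • z.1.2.2 ∈ (X.T z.1.1).table →
      (((z.1.1, z.1.2.1 + t • z.1.2.2, z.1.2.2), Θ t z.2) ∈ A ↔ z ∈ A) := by
    filter_upwards [h1, h2, h3] with z g1 g2 g3 g4
    have h5 := IsTrajectory.free X g2.2 (by rw [g2.1]; exact g3) ht.le (by rw [g2.1]; exact g4)
    rw [g2.1] at h5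
    rw [← g1, mem_preimage]
    simp only [h5]
  exact ae_prod_mu_iff.1 h4 s

/-- a set invariant under a product with the flow: crossings -/
lemma flow_cross [Finite S] [Nonempty S] {Φ : ℝ → S × ℂ × ℂ → S × ℂ × ℂ}
    (hΦ : X.IsBilliardFlow Φ) {Θ : ℝ → Ω → Ω} {A : Set ((S × ℂ × ℂ) × Ω)} {t : ℝ}
    (hA : (X.mu.prod m) (symmDiff ((fun z => (Φ t z.1, Θ t z.2)) ⁻¹' A) A) = 0) (s : S)
    (i : Fin 3) :
    ∀ᵐ p ∂((volume.restrict (X.T s).table).prod (nu.prod m)),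
      (X.T s).E i (p.1, p.2.1) → (X.T s).hitT i (p.1, p.2.1) < t →
      X.R s i (p.1 + t • p.2.1) ∈ (X.T (X.σ s i)).table →
      (((X.σ s i, X.R s i (p.1 + t • p.2.1), X.D s i p.2.1), Θ t p.2.2) ∈ A ↔
        ((s, p.1, p.2.1), p.2.2) ∈ A) := by
  have h1 := ae_iff_of_null hA
  have h2 : ∀ᵐ z ∂(X.mu.prod m), Φ 0 z.1 = z.1 ∧ X.IsTrajectory (fun t => Φ t z.1) :=
    Measure.quasiMeasurePreserving_fst.ae hΦ
  have h3 : ∀ᵐ z ∂(X.mu.prod m), z.1 ∈ X.phase :=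
    Measure.quasiMeasurePreserving_fst.ae ae_mem_phase
  have h4 : ∀ᵐ z ∂(X.mu.prod m), (X.T z.1.1).E i z.1.2 → (X.T z.1.1).hitT i z.1.2 < t →
      X.R z.1.1 i (z.1.2.1 + t • z.1.2.2) ∈ (X.T (X.σ z.1.1 i)).table →
      (((X.σ z.1.1 i, X.R z.1.1 i (z.1.2.1 + t • z.1.2.2), X.D z.1.1 i z.1.2.2), Θ t z.2) ∈ A ↔
        z ∈ A) := by
    filter_upwards [h1, h2, h3] with z g1 g2 g3 g4 g5 g6
    have h5 := IsTrajectory.cross X g2.2 (t := t) (i := i) (by rw [g2.1]; exact g3)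
      (by rw [g2.1]; exact g4) (by rw [g2.1]; exact g5) (by rw [g2.1]; exact g6)
    rw [g2.1] at h5
    rw [← g1, mem_preimage]
    simp only [h5]
  exact ae_prod_mu_iff.1 h4 s

/-- from invariant functions to invariant sets -/
theorem sets_of_funs [Finite S] [Nonempty S] {Φ : ℝ → S × ℂ × ℂ → S × ℂ × ℂ}
    (hΦ : X.IsBilliardFlow Φ) {Θ : ℝ → Ω → Ω}
    (hrel : ∀ H : S → ℂ → ℂ × Ω → ℝ,
      (∀ s, Measurable (fun p : ℂ × (ℂ × Ω) => H s p.1 p.2) ∧ ∃ C : ℝ, ∀ y ω, |H s y ω| ≤ C) →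
      (∀ s, ∀ t > 0, ∀ᵐ p ∂((volume.restrict (X.T s).table).prod (nu.prod m)),
        p.1 + t • p.2.1 ∈ (X.T s).table →
        H s (p.1 + t • p.2.1) (p.2.1, Θ t p.2.2) = H s p.1 p.2) →
      (∀ s, ∀ t > 0, ∀ i, ∀ᵐ p ∂((volume.restrict (X.T s).table).prod (nu.prod m)),
        (X.T s).E i (p.1, p.2.1) → (X.T s).hitT i (p.1, p.2.1) < t →
        X.R s i (p.1 + t • p.2.1) ∈ (X.T (X.σ s i)).table →
        H (X.σ s i) (X.R s i (p.1 + t • p.2.1)) (X.D s i p.2.1, Θ t p.2.2) = H s p.1 p.2) →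
      ∃ f : Ω → ℝ, Measurable f ∧ (∀ t, ∀ᵐ q ∂m, f (Θ t q) = f q) ∧
        ∀ s, ∀ᵐ p ∂((volume.restrict (X.T s).table).prod (nu.prod m)), H s p.1 p.2 = f p.2.2)
    {A : Set ((S × ℂ × ℂ) × Ω)} (hAm : MeasurableSet A)
    (hA : ∀ t, (X.mu.prod m) (symmDiff ((fun z => (Φ t z.1, Θ t z.2)) ⁻¹' A) A) = 0) :
    ∃ B : Set Ω, MeasurableSet B ∧ (∀ t, m (symmDiff (Θ t ⁻¹' B) B) = 0) ∧
      (X.mu.prod m) (symmDiff A (univ ×ˢ B)) = 0 := by
  classical
  have hind : ∀ z w : (S × ℂ × ℂ) × Ω, (z ∈ A ↔ w ∈ A) →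
      A.indicator (1 : (S × ℂ × ℂ) × Ω → ℝ) z = A.indicator (1 : (S × ℂ × ℂ) × Ω → ℝ) w := by
    intro p q h
    by_cases hp : p ∈ A
    · rw [indicator_of_mem hp, indicator_of_mem (h.1 hp)]
      rfl
    · rw [indicator_of_notMem hp, indicator_of_notMem (fun hq => hp (h.2 hq))]
  obtain ⟨f, hf1, hf2, hf3⟩ := hrel (fun s x ω => A.indicator 1 ((s, x, ω.1), ω.2))
    (fun s => by
      refine ⟨?_, 1, ?_⟩
      · have h1 : Measurable (A.indicator (1 : (S × ℂ × ℂ) × Ω → ℝ)) :=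
          measurable_one.indicator hAm
        exact h1.comp ((measurable_const.prodMk (measurable_fst.prodMk
          (measurable_fst.comp measurable_snd))).prodMk (measurable_snd.comp measurable_snd))
      · intro y ω
        by_cases h : ((s, y, ω.1), ω.2) ∈ A
        · rw [indicator_of_mem h]; simp
        · rw [indicator_of_notMem h]; simp)
    (fun s t ht => by
      filter_upwards [flow_free hΦ ht (hA t) s] with p hp h2
      exact hind _ _ (hp h2))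
    (fun s t ht i => by
      filter_upwards [flow_cross hΦ (hA t) s i] with p hp h2 h3 h4
      exact hind _ _ (hp h2 h3 h4))
  refine ⟨f ⁻¹' {1}, hf1 (measurableSet_singleton 1), fun t => ?_, ?_⟩
  · apply null_of_ae_iff
    filter_upwards [hf2 t] with q hq
    simp only [mem_preimage, mem_singleton_iff, hq]
  · apply null_of_ae_iff
    refine ae_prod_mu_iff.2 fun s => ?_
    filter_upwards [hf3 s] with p hp
    simp only [mem_prod, mem_univ, true_and, mem_preimage, mem_singleton_iff]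
    rw [← hp]
    constructor
    · intro h
      rw [indicator_of_mem h]
      rfl
    · intro h
      by_contra h1
      rw [indicator_of_notMem h1] at h
      exact zero_ne_one h

end Cx

end Vale.Agent.P099
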