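import Vale.Agent.P099.H184.Cx.Flow

set_option linter.all false

open MeasureTheory Set Filter Topology

namespace Vale.Agent.P099

namespace Cx

/-! ### measures -/

/-- the measure on the whole space -/
noncomputable def mL (S : Type) [MeasurableSpace S] : Measure (S × ℂ × ℂ) :=
  (Measure.count : Measure S).prod ((volume : Measure ℂ).prod nu)

variable {S : Type} {X : Cx S} [MeasurableSpace S] [MeasurableSingletonClass S]

instance [Finite S] : SigmaFinite (mL S) := by
  unfold mL
  infer_instance

lemma mL_eq_sum [Finite S] : mL S = Measure.sum fun s : S =>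
    ((volume : Measure ℂ).prod nu).map (Prod.mk s) := by
  rw [mL, Measure.count, Measure.prod_sum_left]
  congr 1
  funext s
  rw [Measure.dirac_prod]

/-- the invariant measure (not normalized) tile by tile -/
lemma restrict_phase_eq [Finite S] (X : Cx S) : (mL S).restrict X.phase =
    Measure.sum fun s : S => (((volume.restrict (X.T s).table).prod nu).map (Prod.mk s)) := by
  rw [mL_eq_sum, Measure.restrict_sum _ (measurableSet_phase (X := X))]
  congr 1
  funext s
  rw [Measure.restrict_map measurable_prodMk_left (measurableSet_phase (X := X))]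
  congr 1
  have h1 : Prod.mk s ⁻¹' X.phase = (X.T s).table ×ˢ (univ : Set ℂ) := by
    ext q
    simp [phase]
  rw [h1, ← Measure.prod_restrict, Measure.restrict_univ]

/-- almost everywhere in the phase space means almost everywhere in every triangle -/
lemma ae_phase_iff [Finite S] {P : S × ℂ × ℂ → Prop} :
    (∀ᵐ p ∂((mL S).restrict X.phase), P p) ↔
      ∀ s, ∀ᵐ q ∂((volume.restrict (X.T s).table).prod nu), P (s, q) := by
  rw [restrict_phase_eq, Measure.ae_sum_iff]
  exact forall_congr' fun s => (measurableEmbedding_prodMk_left s).ae_map_iff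

instance (s : S) : IsFiniteMeasure (volume.restrict (X.T s).table) :=
  ⟨by rw [Measure.restrict_apply_univ]; exact (X.T s).volume_table_lt_top⟩

instance [Finite S] : IsFiniteMeasure ((mL S).restrict X.phase) := by
  have : Fintype S := Fintype.ofFinite S
  rw [restrict_phase_eq, Measure.sum_fintype]
  infer_instance

/-- the same with a parameter -/
lemma ae_prod_phase_iff [Finite S] {Ω : Type} [MeasurableSpace Ω] {m : Measure Ω}
    [IsProbabilityMeasure m] {P : (S × ℂ × ℂ) × Ω → Prop} :
    (∀ᵐ z ∂(((mL S).restrict X.phase).prod m), P z) ↔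
      ∀ s, ∀ᵐ p ∂((volume.restrict (X.T s).table).prod (nu.prod m)),
        P ((s, p.1, p.2.1), p.2.2) := by
  rw [restrict_phase_eq, Measure.prod_sum_left, Measure.ae_sum_iff]
  refine forall_congr' fun s => ?_
  have h0 : (((volume.restrict (X.T s).table).prod nu).map (Prod.mk s)).prod m =
      (((volume.restrict (X.T s).table).prod nu).prod m).map
        (fun z : (ℂ × ℂ) × Ω => ((s, z.1), z.2)) := by
    have := Measure.map_prod_map ((volume.restrict (X.T s).table).prod nu) m
      (f := Prod.mk s) (g := id) measurable_prodMk_left measurable_id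
    rw [Measure.map_id] at this
    exact this
  have he : MeasurableEmbedding (fun z : (ℂ × ℂ) × Ω => (((s, z.1), z.2) : (S × ℂ × ℂ) × Ω)) :=
    (measurableEmbedding_prodMk_left s).prodMap MeasurableEmbedding.id
  rw [h0, he.ae_map_iff]
  have h1 := measurePreserving_prodAssoc (volume.restrict (X.T s).table) nu m
  constructor
  · intro h
    have h2 := (h1.symm _).quasiMeasurePreserving.ae h
    exact h2
  · intro h
    exact h1.quasiMeasurePreserving.ae h

end Cx

end Vale.Agent.P099
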