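import Vale.Agent.P099.H184.Cx.Traj

set_option linter.all false

open MeasureTheory Set Filter Topology

namespace Vale.Agent.P099

namespace Cx

variable {S : Type} (X : Cx S)

/-- the forward ray of the state leaves the triangle through the open side `i` -/
def E (i : Fin 3) (p : S × ℂ × ℂ) : Prop := (X.T p.1).E i p.2

/-- time at which the ray meets the line of side `i` -/
noncomputable def hitT (i : Fin 3) (p : S × ℂ × ℂ) : ℝ := (X.T p.1).hitT i p.2

/-- the state just after the crossing of the side `i` -/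
noncomputable def hit (i : Fin 3) (p : S × ℂ × ℂ) : S × ℂ × ℂ :=
  (X.σ p.1 i, p.2.1 + X.hitT i p • p.2.2, X.D p.1 i p.2.2)

/-- admissible states -/
def Adm (p : S × ℂ × ℂ) : Prop := (X.T p.1).Adm p.2

/-- state after the crossings listed in the word -/
noncomputable def orb : List (Fin 3) → S × ℂ × ℂ → S × ℂ × ℂ
  | [], p => p
  | i :: w, p => orb w (X.hit i p)

/-- the successive crossings of `p` are through the sides listed in the word -/
def dom : List (Fin 3) → S × ℂ × ℂ → Prop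
  | [], _ => True
  | i :: w, p => X.E i p ∧ dom w (X.hit i p)

/-- regular states: the forward trajectory never runs into a vertex -/
def Reg (p : S × ℂ × ℂ) : Prop := ∀ w, X.dom w p → ∃ i, X.E i (X.orb w p)

lemma adm_of_mem_table {p : S × ℂ × ℂ} (h : p.2.1 ∈ (X.T p.1).table) : X.Adm p :=
  (X.T p.1).adm_of_mem_table h

lemma E.lam_pos {p : S × ℂ × ℂ} (h : X.Adm p) {i : Fin 3} (hE : X.E i p) :
    0 < (X.T p.1).lam i p.2.1 := Triangle.E.lam_pos (X.T p.1) h hE

lemma E.hitT_pos {p : S × ℂ × ℂ} (h : X.Adm p) {i : Fin 3} (hE : X.E i p) : 0 < X.hitT i p :=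
  Triangle.E.hitT_pos (X.T p.1) h hE

/-- the crossing point lies on the side, seen from the old triangle -/
lemma E.mem_side {p : S × ℂ × ℂ} {i : Fin 3} (hE : X.E i p) :
    p.2.1 + X.hitT i p • p.2.2 ∈ (X.T p.1).side i := Triangle.E.hit_mem_side (X.T p.1) hE

lemma E.hit_mem_side {p : S × ℂ × ℂ} {i : Fin 3} (hE : X.E i p) :
    (X.hit i p).2.1 ∈ (X.T (X.hit i p).1).side i := by
  change p.2.1 + X.hitT i p • p.2.2 ∈ (X.T (X.σ p.1 i)).side i
  rw [X.side_nb]
  exact E.mem_side X hE

lemma lam_hit (i : Fin 3) {p : S × ℂ × ℂ} (hE : X.E i p) :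
    (X.T (X.hit i p).1).lam i (X.hit i p).2.1 = 0 :=
  (((X.T (X.hit i p).1).mem_side_iff i _).1 (E.hit_mem_side X hE)).1

lemma lam_hit_old (i : Fin 3) {p : S × ℂ × ℂ} (hE : X.E i p) :
    (X.T p.1).lam i (X.hit i p).2.1 = 0 :=
  (((X.T p.1).mem_side_iff i _).1 (E.mem_side X hE)).1

lemma E.adm_hit {p : S × ℂ × ℂ} {i : Fin 3} (hE : X.E i p) : X.Adm (X.hit i p) := by
  intro j
  by_cases hj : j = i
  · rw [hj]
    right
    refine ⟨X.lam_hit i hE, ?_⟩
    change 0 < (X.T (X.σ p.1 i)).ell i (X.D p.1 i p.2.2)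
    rw [X.ell_D]
    have h1 := X.kap_pos p.1 i
    have h2 : (X.T p.1).ell i p.2.2 < 0 := hE.1
    nlinarith
  · left
    exact (((X.T (X.hit i p).1).mem_side_iff' i _).1 (E.hit_mem_side X hE)).2 j hj

lemma E.unique {p : S × ℂ × ℂ} (h : X.Adm p) {i j : Fin 3} (hi : X.E i p) (hj : X.E j p) :
    i = j := Triangle.E.unique (X.T p.1) h hi hj

lemma E.mem_table {p : S × ℂ × ℂ} (h : X.Adm p) {i : Fin 3} (hE : X.E i p) {t : ℝ} (ht : 0 < t)
    (ht' : t < X.hitT i p) : p.2.1 + t • p.2.2 ∈ (X.T p.1).table :=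
  Triangle.E.mem_table (X.T p.1) h hE ht ht'

lemma adm_orb {p : S × ℂ × ℂ} (h : X.Adm p) (w : List (Fin 3)) (hw : X.dom w p) :
    X.Adm (X.orb w p) := by
  induction w generalizing p with
  | nil => exact h
  | cons i w ih => exact ih (E.adm_hit X hw.1) hw.2

lemma norm_orb {p : S × ℂ × ℂ} (h : ‖p.2.2‖ = 1) (w : List (Fin 3)) :
    ‖(X.orb w p).2.2‖ = 1 := by
  induction w generalizing p with
  | nil => exact h
  | cons i w ih => exact ih (by change ‖X.D p.1 i p.2.2‖ = 1; rw [X.norm_D, h])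

lemma Reg.hit {p : S × ℂ × ℂ} (h : X.Reg p) {i : Fin 3} (hE : X.E i p) : X.Reg (X.hit i p) :=
  fun w hw => h (i :: w) ⟨hE, hw⟩

/-! ### unfolding -/

/-- the triangle at the end of the unfolding -/
def tl : S → List (Fin 3) → S
  | s, [] => s
  | s, i :: w => tl (X.σ s i) w

/-- position part of the unfolding -/
noncomputable def GX : S → List (Fin 3) → ℂ → ℂ
  | _, [], x => x
  | s, i :: w, x => GX (X.σ s i) w (X.R s i x)

/-- direction part of the unfolding -/
noncomputable def GU : S → List (Fin 3) → ℂ → ℂ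
  | _, [], u => u
  | s, i :: w, u => GU (X.σ s i) w (X.D s i u)

lemma GX_add (s : S) (w : List (Fin 3)) (x v : ℂ) (r : ℝ) :
    X.GX s w (x + r • v) = X.GX s w x + r • X.GU s w v := by
  induction w generalizing s x v with
  | nil => rfl
  | cons i w ih =>
    change X.GX (X.σ s i) w (X.R s i (x + r • v)) =
      X.GX (X.σ s i) w (X.R s i x) + r • X.GU (X.σ s i) w (X.D s i v)
    rw [X.R_add, X.D_smul, ih]

lemma norm_GU (s : S) (w : List (Fin 3)) (u : ℂ) : ‖X.GU s w u‖ = ‖u‖ := by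
  induction w generalizing s u with
  | nil => rfl
  | cons i w ih =>
    change ‖X.GU (X.σ s i) w (X.D s i u)‖ = ‖u‖
    rw [ih, X.norm_D]

lemma continuous_GX (s : S) (w : List (Fin 3)) : Continuous (X.GX s w) := by
  induction w generalizing s with
  | nil => exact continuous_id
  | cons i w ih => exact (ih _).comp (X.continuous_R s i)

lemma continuous_GU (s : S) (w : List (Fin 3)) : Continuous (X.GU s w) := by
  induction w generalizing s with
  | nil => exact continuous_id
  | cons i w ih => exact (ih _).comp (X.continuous_D s i)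

lemma measurePreserving_GX (s : S) (w : List (Fin 3)) :
    MeasurePreserving (X.GX s w) volume volume := by
  induction w generalizing s with
  | nil => exact MeasurePreserving.id _
  | cons i w ih => exact (ih _).comp (X.measurePreserving_R s i)

lemma measurePreserving_GU (s : S) (w : List (Fin 3)) : MeasurePreserving (X.GU s w) nu nu := by
  induction w generalizing s with
  | nil => exact MeasurePreserving.id _
  | cons i w ih => exact (ih _).comp (X.measurePreserving_D s i)

/-- the crossing point in terms of the crossing map -/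
lemma hit_eq {i : Fin 3} {p : S × ℂ × ℂ} (hE : X.E i p) :
    (X.hit i p).2.1 = X.R p.1 i p.2.1 + X.hitT i p • X.D p.1 i p.2.2 := by
  have h3 := X.R_side (E.mem_side X hE)
  rw [X.R_add, X.D_smul] at h3
  exact h3.symm

lemma cr_orb (m : Fin 3) (w : List (Fin 3)) (p : S × ℂ × ℂ) (hw : X.dom w p) :
    (X.orb w p).1 = X.tl p.1 w ∧
    cr ((X.T (X.tl p.1 w)).P m - (X.orb w p).2.1) (X.orb w p).2.2 =
      cr ((X.T (X.tl p.1 w)).P m - X.GX p.1 w p.2.1) (X.GU p.1 w p.2.2) := by
  induction w generalizing p with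
  | nil => exact ⟨rfl, rfl⟩
  | cons i w ih =>
    obtain ⟨h0, h1⟩ := ih (X.hit i p) hw.2
    refine ⟨h0, ?_⟩
    change cr ((X.T (X.tl (X.hit i p).1 w)).P m - (X.orb w (X.hit i p)).2.1)
      (X.orb w (X.hit i p)).2.2
      = cr ((X.T (X.tl (X.hit i p).1 w)).P m - X.GX (X.σ p.1 i) w (X.R p.1 i p.2.1))
        (X.GU (X.σ p.1 i) w (X.D p.1 i p.2.2))
    rw [h1]
    have h2 := X.hit_eq hw.1
    have h4 : (X.hit i p).2.2 = X.D p.1 i p.2.2 := rfl
    have h5 : (X.hit i p).1 = X.σ p.1 i := rfl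
    rw [h2, h4, h5, X.GX_add]
    simp only [cr, Complex.sub_re, Complex.sub_im, Complex.add_re, Complex.add_im,
      Complex.real_smul, Complex.re_ofReal_mul, Complex.im_ofReal_mul]
    ring

lemma ae_cr_ne (s : S) (w : List (Fin 3)) (m : Fin 3) :
    ∀ᵐ p ∂((volume.restrict (X.T s).table).prod nu),
      cr ((X.T (X.tl s w)).P m - X.GX s w p.1) (X.GU s w p.2) ≠ 0 := by
  generalize (X.T (X.tl s w)).P m = Q
  rw [ae_iff]
  simp only [not_not]
  have hc : Continuous (fun p : ℂ × ℂ => cr (Q - X.GX s w p.1) (X.GU s w p.2)) := by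
    have h2 := (X.continuous_GX s w).comp (continuous_fst (X := ℂ) (Y := ℂ))
    have h3 := (X.continuous_GU s w).comp (continuous_snd (X := ℂ) (Y := ℂ))
    have h4 : Continuous (fun p : ℂ × ℂ => Q - X.GX s w p.1) :=
      continuous_const.sub h2
    unfold cr
    exact ((Complex.continuous_re.comp h4).mul (Complex.continuous_im.comp h3)).sub
      ((Complex.continuous_im.comp h4).mul (Complex.continuous_re.comp h3))
  have hms : MeasurableSet {p : ℂ × ℂ | cr (Q - X.GX s w p.1) (X.GU s w p.2) = 0} :=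
    (isClosed_singleton.preimage hc).measurableSet
  rw [Measure.prod_apply_symm hms]
  apply lintegral_eq_zero_of_ae_eq_zero
  filter_upwards [ae_norm] with u hu
  have h5 : X.GU s w u ≠ 0 := by
    intro h6
    have := X.norm_GU s w u
    rw [h6, hu, norm_zero] at this
    norm_num at this
  have h7 := volume_line Q _ h5
  have h8 : volume (X.GX s w ⁻¹' {y | cr (Q - y) (X.GU s w u) = 0}) = 0 :=
    (X.measurePreserving_GX s w).quasiMeasurePreserving.preimage_null h7
  exact le_antisymm ((Measure.restrict_apply_le _ _).trans h8.le) bot_le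

lemma exists_vertex {q : S × ℂ × ℂ} (h : X.Adm q) (hu : q.2.2 ≠ 0) (hE : ∀ i, ¬ X.E i q) :
    ∃ m, cr ((X.T q.1).P m - q.2.1) q.2.2 = 0 :=
  (X.T q.1).exists_vertex (s := q.2) h hu hE

lemma reg_of_cr {s : S} {p : ℂ × ℂ} (h5 : p.1 ∈ (X.T s).table) (h6 : ‖p.2‖ = 1)
    (h7 : ∀ w : List (Fin 3), ∀ m : Fin 3,
      cr ((X.T (X.tl s w)).P m - X.GX s w p.1) (X.GU s w p.2) ≠ 0) : X.Reg (s, p) := by
  intro w hw
  by_contra hne
  rw [not_exists] at hne
  have ha : X.Adm (X.orb w (s, p)) := X.adm_orb (X.adm_of_mem_table (p := (s, p)) h5) w hw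
  have hn : ‖(X.orb w (s, p)).2.2‖ = 1 := X.norm_orb (p := (s, p)) h6 w
  have hn0 : (X.orb w (s, p)).2.2 ≠ 0 := by
    intro h8; rw [h8, norm_zero] at hn; norm_num at hn
  obtain ⟨m, hm⟩ := X.exists_vertex ha hn0 hne
  obtain ⟨h8, h9⟩ := X.cr_orb m w (s, p) hw
  have h10 : cr ((X.T (X.tl s w)).P m - (X.orb w (s, p)).2.1) (X.orb w (s, p)).2.2 = 0 := by
    rw [← hm, h8]
  exact h7 w m (h9.symm.trans h10)

lemma ae_reg_one (s : S) :
    ∀ᵐ p ∂((volume.restrict (X.T s).table).prod nu), X.Reg (s, p) := by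
  have h2 : ∀ᵐ p ∂((volume.restrict (X.T s).table).prod nu), p.1 ∈ (X.T s).table :=
    Measure.quasiMeasurePreserving_fst.ae (ae_restrict_mem (X.T s).isOpen_table.measurableSet)
  have h3 : ∀ᵐ p ∂((volume.restrict (X.T s).table).prod nu), ‖p.2‖ = 1 :=
    Measure.quasiMeasurePreserving_snd.ae ae_norm
  have h4 : ∀ᵐ p ∂((volume.restrict (X.T s).table).prod nu), ∀ w : List (Fin 3), ∀ m : Fin 3,
      cr ((X.T (X.tl s w)).P m - X.GX s w p.1) (X.GU s w p.2) ≠ 0 := by
    rw [ae_all_iff]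
    intro w
    rw [ae_all_iff]
    exact X.ae_cr_ne s w
  filter_upwards [h2, h3, h4] with p h5 h6 h7
  exact X.reg_of_cr h5 h6 h7

/-- reversal of the velocity -/
def flip (p : S × ℂ × ℂ) : S × ℂ × ℂ := (p.1, p.2.1, -p.2.2)

lemma flip_flip (p : S × ℂ × ℂ) : flip (flip p) = p := by simp [flip]

/-- almost every state is regular in both directions -/
lemma ae_reg (s : S) : ∀ᵐ p ∂((volume.restrict (X.T s).table).prod nu),
    X.Reg (s, p) ∧ X.Reg (flip (s, p)) := by
  have h1 : MeasurePreserving (fun p : ℂ × ℂ => (p.1, -p.2))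
      ((volume.restrict (X.T s).table).prod nu) ((volume.restrict (X.T s).table).prod nu) :=
    (MeasurePreserving.id _).prod measurePreserving_neg'
  have h2 := h1.quasiMeasurePreserving.ae (X.ae_reg_one s)
  filter_upwards [X.ae_reg_one s, h2] with p h3 h4
  exact ⟨h3, h4⟩

end Cx

end Vale.Agent.P099
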