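import Vale.Agent.P099.H184.Cx.Reg

set_option linter.all false

open MeasureTheory Set Filter Topology

namespace Vale.Agent.P099

namespace Cx

variable {S : Type} (X : Cx S)

open Classical in
/-- the exit side -/
noncomputable def ex (p : S × ℂ × ℂ) : Fin 3 := if h : ∃ i, X.E i p then h.choose else 0

/-- the state after `n` crossings -/
noncomputable def sq (p : S × ℂ × ℂ) : ℕ → S × ℂ × ℂ
  | 0 => p
  | n + 1 => X.hit (X.ex (sq p n)) (sq p n)

/-- the flight times -/
noncomputable def tau (p : S × ℂ × ℂ) (n : ℕ) : ℝ := X.hitT (X.ex (X.sq p n)) (X.sq p n)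

/-- the crossing times -/
noncomputable def tt (p : S × ℂ × ℂ) (n : ℕ) : ℝ := ∑ m ∈ Finset.range n, X.tau p m

/-- good states -/
structure Good (p : S × ℂ × ℂ) : Prop where
  adm : X.Adm p
  reg : X.Reg p
  norm : ‖p.2.2‖ = 1

variable {X}

lemma Good.E {p : S × ℂ × ℂ} (h : X.Good p) : X.E (X.ex p) p := by
  have h1 : ∃ i, X.E i p := by
    simpa only [orb] using h.reg [] trivial
  rw [ex, dif_pos h1]
  exact h1.choose_spec

lemma Good.hit {p : S × ℂ × ℂ} (h : X.Good p) : X.Good (X.hit (X.ex p) p) :=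
  ⟨Cx.E.adm_hit X h.E, Cx.Reg.hit X h.reg h.E, by
    change ‖X.D _ _ p.2.2‖ = 1
    rw [X.norm_D, h.norm]⟩

lemma Good.sq {p : S × ℂ × ℂ} (h : X.Good p) (n : ℕ) : X.Good (X.sq p n) := by
  induction n with
  | zero => exact h
  | succ n ih => exact ih.hit

lemma Good.tau_pos {p : S × ℂ × ℂ} (h : X.Good p) (n : ℕ) : 0 < X.tau p n :=
  Cx.E.hitT_pos X (h.sq n).adm (h.sq n).E

lemma tt_succ (p : S × ℂ × ℂ) (n : ℕ) : X.tt p (n + 1) = X.tt p n + X.tau p n := by
  rw [tt, tt, Finset.sum_range_succ]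

lemma sq_succ_tile (p : S × ℂ × ℂ) (n : ℕ) :
    (X.sq p (n + 1)).1 = X.σ (X.sq p n).1 (X.ex (X.sq p n)) := rfl

lemma sq_succ_fst (p : S × ℂ × ℂ) (n : ℕ) :
    (X.sq p (n + 1)).2.1 = (X.sq p n).2.1 + X.tau p n • (X.sq p n).2.2 := rfl

lemma sq_succ_snd (p : S × ℂ × ℂ) (n : ℕ) :
    (X.sq p (n + 1)).2.2 = X.D (X.sq p n).1 (X.ex (X.sq p n)) (X.sq p n).2.2 := rfl

/-- the exit side differs from the entrance side -/
lemma Good.ex_succ_ne {p : S × ℂ × ℂ} (h : X.Good p) (n : ℕ) :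
    X.ex (X.sq p (n + 1)) ≠ X.ex (X.sq p n) := by
  intro he
  have h1 : 0 < (X.T (X.sq p (n + 1)).1).lam (X.ex (X.sq p (n + 1))) (X.sq p (n + 1)).2.1 :=
    Cx.E.lam_pos X (h.sq (n + 1)).adm (h.sq (n + 1)).E
  have h2 : (X.T (X.sq p (n + 1)).1).lam (X.ex (X.sq p n)) (X.sq p (n + 1)).2.1 = 0 :=
    X.lam_hit _ (h.sq n).E
  rw [he, h2] at h1
  exact lt_irrefl _ h1

/-- a point with two vanishing coordinates is a vertex -/
lemma eq_P_of_lam {T : Triangle} {x : ℂ} {a b c : Fin 3} (hab : a ≠ b) (hca : c ≠ a) (hcb : c ≠ b)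
    (ha : T.lam a x = 0) (hb : T.lam b x = 0) : x = T.P c := by
  have hz : ∀ k, k ≠ c → T.lam k x = 0 := by
    intro k hk
    have : ∀ a b c k : Fin 3, a ≠ b → c ≠ a → c ≠ b → k ≠ c → k = a ∨ k = b := by
      clear * -; decide
    rcases this a b c k hab hca hcb hk with rfl | rfl
    · exact ha
    · exact hb
  have h5 := T.sub_P_eq c x
  have n1 : ∀ c : Fin 3, c + 1 ≠ c := by decide
  have n2 : ∀ c : Fin 3, c + 2 ≠ c := by decide
  rw [hz _ (n1 c), hz _ (n2 c), zero_smul, zero_smul, add_zero, sub_eq_zero] at h5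
  exact h5

lemma third (a b : Fin 3) (h : a ≠ b) : ∃ c, c ≠ a ∧ c ≠ b := by
  revert a b; decide

/-- a ray along the direction towards an endpoint of the side does not enter the triangle -/
lemma ell_eq_zero_of_cr {T : Triangle} {i c : Fin 3} (hic : c ≠ i) {y u : ℂ} (hy : y ∈ T.side i)
    (h : cr (T.P c - y) u = 0) : T.ell i u = 0 := by
  obtain ⟨a, b, ha, hb, hab, h13⟩ := hy
  have h14 : cr (T.d i) u = 0 := by
    have n3 : ∀ i c : Fin 3, c ≠ i → c = i + 1 ∨ c = i + 2 := by decide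
    rcases n3 i c hic with h15 | h15
    · have h16 : T.P c - y = (-b) • T.d i := by
        rw [← h13, h15, Triangle.d]
        have : a = 1 - b := by linarith only [hab]
        rw [this]
        module
      rw [h16, Triangle.cr_smul_left'] at h
      rcases mul_eq_zero.1 h with h17 | h17
      · linarith only [hb, h17]
      · exact h17
    · have h16 : T.P c - y = a • T.d i := by
        rw [← h13, h15, Triangle.d]
        have : b = 1 - a := by linarith only [hab]
        rw [this]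
        module
      rw [h16, Triangle.cr_smul_left'] at h
      rcases mul_eq_zero.1 h with h17 | h17
      · linarith only [ha, h17]
      · exact h17
  rw [Triangle.ell, h14, zero_div]

/-- the transversal distance to a point of the crossed side line is preserved -/
lemma abs_cr_hit {p : S × ℂ × ℂ} {i : Fin 3} (hE : X.E i p) {x : ℂ}
    (hx : (X.T p.1).lam i x = 0) :
    |cr (x - (X.hit i p).2.1) (X.hit i p).2.2| = |cr (x - p.2.1) p.2.2| := by
  have h1 : x - (X.hit i p).2.1 = X.D p.1 i (x - (X.hit i p).2.1) := by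
    have h2 : X.R p.1 i x = x := X.R_of_lam_eq_zero hx
    have h3 : X.R p.1 i (X.hit i p).2.1 = (X.hit i p).2.1 := X.R_side (Cx.E.mem_side X hE)
    rw [← X.R_sub, h2, h3]
  have h4 : (X.hit i p).2.2 = X.D p.1 i p.2.2 := rfl
  have h5 : (X.hit i p).2.1 = p.2.1 + X.hitT i p • p.2.2 := rfl
  rw [h1, h4, X.abs_cr_D, h5, ← sub_sub, Triangle.cr_sub_left', Triangle.cr_smul_left',
    Triangle.cr_self', mul_zero, sub_zero]

/-- crossing times do not accumulate -/
lemma Good.not_summable [Finite S] {p : S × ℂ × ℂ} (h : X.Good p) : ¬ Summable (X.tau p) := by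
  intro hsum
  -- the positions converge
  have hc : CauchySeq (fun n => (X.sq p n).2.1) := by
    apply cauchySeq_of_dist_le_of_summable (X.tau p) _ hsum
    intro n
    rw [Nat.succ_eq_add_one, sq_succ_fst, dist_eq_norm, sub_add_cancel_left, norm_neg, norm_smul,
      (h.sq n).norm, mul_one, Real.norm_eq_abs, abs_of_pos (h.tau_pos n)]
  obtain ⟨x, hx⟩ := cauchySeq_tendsto_of_complete hc
  -- the limit lies on the lines of the crossed sides
  have key : ∀ᶠ n in atTop, (X.T (X.sq p n).1).lam (X.ex (X.sq p n)) x = 0 := by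
    have h0 : ∀ q : S × Fin 3, ∀ᶠ n in atTop, (X.sq p n).1 = q.1 → X.ex (X.sq p n) = q.2 →
        (X.T q.1).lam q.2 x = 0 := by
      rintro ⟨s, j⟩
      by_cases hz : (X.T s).lam j x = 0
      · exact Eventually.of_forall fun n _ _ => hz
      · have h1 : Tendsto (fun n => (X.T s).lam j (X.sq p (n + 1)).2.1) atTop
            (𝓝 ((X.T s).lam j x)) :=
          ((Triangle.continuous_lamE j).tendsto x).comp (hx.comp (tendsto_add_atTop_nat 1))
        filter_upwards [h1.eventually_ne hz] with n hn h2 h3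
        exfalso
        apply hn
        have h4 := X.lam_hit_old _ (h.sq n).E
        rw [h3, h2] at h4
        have h5 : (X.sq p (n + 1)).2.1 = (X.hit j (X.sq p n)).2.1 := by
          rw [← h3]; rfl
        rw [h5]; exact h4
    have h1 : ∀ᶠ n in atTop, ∀ q : S × Fin 3, (X.sq p n).1 = q.1 → X.ex (X.sq p n) = q.2 →
        (X.T q.1).lam q.2 x = 0 := eventually_all.2 h0
    filter_upwards [h1] with n hn
    exact hn ((X.sq p n).1, X.ex (X.sq p n)) rfl rfl
  obtain ⟨n0, hn0⟩ := eventually_atTop.1 key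
  -- the entrance side
  have key' : ∀ n, n0 ≤ n → (X.T (X.sq p (n + 1)).1).lam (X.ex (X.sq p n)) x = 0 := by
    intro n hn
    have h1 := hn0 n hn
    have h2 := X.lam_R (X.sq p n).1 (X.ex (X.sq p n)) x
    rw [X.R_of_lam_eq_zero h1, h1, mul_zero] at h2
    exact h2
  -- the label of the vertex
  obtain ⟨c, hc1, hc2⟩ := third _ _ (h.ex_succ_ne n0)
  have hxc : ∀ n, n0 ≤ n → x = (X.T (X.sq p (n + 1)).1).P c ∧ c ≠ X.ex (X.sq p n) ∧
      c ≠ X.ex (X.sq p (n + 1)) := by
    intro n hn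
    induction n, hn using Nat.le_induction with
    | base =>
      exact ⟨eq_P_of_lam (h.ex_succ_ne n0).symm hc2 hc1 (key' n0 le_rfl) (hn0 (n0 + 1) (by omega)),
        hc2, hc1⟩
    | succ n hn ih =>
      obtain ⟨h1, h2, h3⟩ := ih
      obtain ⟨c', hc1', hc2'⟩ := third _ _ (h.ex_succ_ne (n + 1))
      have h4 : x = (X.T (X.sq p (n + 1 + 1)).1).P c' :=
        eq_P_of_lam (h.ex_succ_ne (n + 1)).symm hc2' hc1' (key' (n + 1) (by omega))
          (hn0 (n + 1 + 1) (by omega))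
      have h5 : x = (X.T (X.sq p (n + 1 + 1)).1).P c := by
        rw [h1, sq_succ_tile p (n + 1)]
        exact (X.glue _ _ _ h3).symm
      have h6 : c = c' := by
        by_contra hne
        have h7 := (X.T (X.sq p (n + 1 + 1)).1).lam_P c c
        have h8 := (X.T (X.sq p (n + 1 + 1)).1).lam_P c c'
        rw [← h5] at h7
        rw [← h4, h7] at h8
        simp [hne] at h8
      rw [h6]
      rw [h6] at h3
      exact ⟨h4, h3, hc1'⟩
  -- the transversal distance to the vertex is eventually constant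
  have hconst : ∀ n, n0 ≤ n → |cr (x - (X.sq p n).2.1) (X.sq p n).2.2|
      = |cr (x - (X.sq p n0).2.1) (X.sq p n0).2.2| := by
    intro n hn
    induction n, hn using Nat.le_induction with
    | base => rfl
    | succ n hn ih =>
      rw [← ih]
      exact abs_cr_hit (h.sq n).E (hn0 n hn)
  have hlim : Tendsto (fun n => |cr (x - (X.sq p n).2.1) (X.sq p n).2.2|) atTop (𝓝 0) := by
    have h6 : Tendsto (fun n => ‖x - (X.sq p n).2.1‖) atTop (𝓝 0) := by
      have := (tendsto_const_nhds (x := x)).sub hx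
      rw [sub_self] at this
      simpa only [norm_zero] using this.norm
    refine squeeze_zero (fun n => abs_nonneg _) (fun n => ?_) h6
    refine (Triangle.abs_cr_le' _ _).trans ?_
    rw [(h.sq n).norm, mul_one]
  have hzero : |cr (x - (X.sq p n0).2.1) (X.sq p n0).2.2| = 0 := by
    have h7 : Tendsto (fun n => |cr (x - (X.sq p n).2.1) (X.sq p n).2.2|) atTop
        (𝓝 |cr (x - (X.sq p n0).2.1) (X.sq p n0).2.2|) := by
      apply tendsto_const_nhds.congr'
      filter_upwards [eventually_ge_atTop n0] with n hn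
      exact (hconst n hn).symm
    exact tendsto_nhds_unique h7 hlim
  -- contradiction at the time n0 + 1
  obtain ⟨h1, h2, h3⟩ := hxc n0 le_rfl
  have h8 : cr (x - (X.sq p (n0 + 1)).2.1) (X.sq p (n0 + 1)).2.2 = 0 := by
    rw [← abs_eq_zero, hconst (n0 + 1) (by omega), hzero]
  have h9 : (X.sq p (n0 + 1)).2.1 ∈ (X.T (X.sq p (n0 + 1)).1).side (X.ex (X.sq p n0)) :=
    Cx.E.hit_mem_side X (h.sq n0).E
  have h10 : 0 < (X.T (X.sq p (n0 + 1)).1).ell (X.ex (X.sq p n0)) (X.sq p (n0 + 1)).2.2 := by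
    rcases (h.sq (n0 + 1)).adm (X.ex (X.sq p n0)) with h11 | h11
    · rw [(((X.T (X.sq p (n0 + 1)).1).mem_side_iff _ _).1 h9).1] at h11
      exact absurd h11 (lt_irrefl _)
    · exact h11.2
  rw [h1] at h8
  rw [ell_eq_zero_of_cr h2 h9 h8] at h10
  exact lt_irrefl _ h10

lemma Good.tt_tendsto [Finite S] {p : S × ℂ × ℂ} (h : X.Good p) :
    Tendsto (X.tt p) atTop atTop :=
  (not_summable_iff_tendsto_nat_atTop_of_nonneg (fun n => (h.tau_pos n).le)).1 h.not_summable

lemma tt_zero (p : S × ℂ × ℂ) : X.tt p 0 = 0 := by simp [tt]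

lemma Good.tt_strictMono {p : S × ℂ × ℂ} (h : X.Good p) : StrictMono (X.tt p) :=
  strictMono_nat_of_lt_succ fun n => by
    rw [tt_succ]; linarith [h.tau_pos n]

lemma Good.exists_idx [Finite S] {p : S × ℂ × ℂ} (h : X.Good p) (t : ℝ) :
    ∃ n, t < X.tt p (n + 1) :=
  (((tendsto_add_atTop_nat 1).eventually (h.tt_tendsto.eventually_gt_atTop t))).exists

/-- number of crossings before time `t` -/
noncomputable def idx (X : Cx S) (p : S × ℂ × ℂ) (t : ℝ) : ℕ := sInf {n | t < X.tt p (n + 1)}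

lemma Good.idx_eq {p : S × ℂ × ℂ} (h : X.Good p) {n : ℕ} {t : ℝ} (h1 : X.tt p n ≤ t)
    (h2 : t < X.tt p (n + 1)) : X.idx p t = n := by
  apply le_antisymm
  · exact Nat.sInf_le h2
  · apply le_csInf ⟨n, h2⟩
    intro m hm
    by_contra hlt
    rw [not_le] at hlt
    have h3 : X.tt p (m + 1) ≤ X.tt p n := h.tt_strictMono.monotone (by omega)
    have h4 : t < X.tt p (m + 1) := hm
    linarith only [h1, h3, h4]

lemma Good.exists_Ico [Finite S] {p : S × ℂ × ℂ} (h : X.Good p) {t : ℝ} (ht : 0 ≤ t) :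
    ∃ n, X.tt p n ≤ t ∧ t < X.tt p (n + 1) := by
  classical
  have hex := h.exists_idx t
  refine ⟨Nat.find hex, ?_, Nat.find_spec hex⟩
  rcases Nat.eq_zero_or_pos (Nat.find hex) with h1 | h1
  · rw [h1, tt_zero]; exact ht
  · have := Nat.find_min hex (Nat.sub_lt h1 one_pos)
    rw [not_lt, show Nat.find hex - 1 + 1 = Nat.find hex by omega] at this
    exact this

/-- forward motion -/
noncomputable def fw (X : Cx S) (p : S × ℂ × ℂ) (t : ℝ) : S × ℂ × ℂ :=
  ((X.sq p (X.idx p t)).1,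
    (X.sq p (X.idx p t)).2.1 + (t - X.tt p (X.idx p t)) • (X.sq p (X.idx p t)).2.2,
    (X.sq p (X.idx p t)).2.2)

lemma Good.fw_eq {p : S × ℂ × ℂ} (h : X.Good p) {n : ℕ} {t : ℝ} (h1 : X.tt p n ≤ t)
    (h2 : t < X.tt p (n + 1)) :
    X.fw p t = ((X.sq p n).1, (X.sq p n).2.1 + (t - X.tt p n) • (X.sq p n).2.2,
      (X.sq p n).2.2) := by
  rw [fw, h.idx_eq h1 h2]

/-- the local condition in the definition of a trajectory -/
def Loc (X : Cx S) (γ : ℝ → S × ℂ × ℂ) (t : ℝ) : Prop :=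
  ((γ t).2.1 ∈ (X.T (γ t).1).table ∧
      ∀ᶠ r in 𝓝 t, γ r = ((γ t).1, (γ t).2.1 + (r - t) • (γ t).2.2, (γ t).2.2)) ∨
    ∃ s i u, ((γ t).1 = s ∨ (γ t).1 = X.σ s i) ∧ (γ t).2.1 ∈ (X.T s).side i ∧
      (∀ᶠ r in 𝓝[<] t, γ r = (s, (γ t).2.1 + (r - t) • u, u)) ∧
      (∀ᶠ r in 𝓝[>] t, γ r = (X.σ s i, (γ t).2.1 + (r - t) • X.D s i u, X.D s i u))

lemma Loc.congr {γ γ' : ℝ → S × ℂ × ℂ} {t : ℝ} (h : X.Loc γ t) (h' : γ' =ᶠ[𝓝 t] γ) :
    X.Loc γ' t := by
  have e : γ' t = γ t := h'.eq_of_nhds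
  rcases h with ⟨h1, h2⟩ | ⟨s, i, u, h0, h1, h2, h3⟩
  · refine Or.inl ⟨by rw [e]; exact h1, ?_⟩
    filter_upwards [h2, h'] with s hs hs'
    rw [hs', hs, e]
  · refine Or.inr ⟨s, i, u, by rw [e]; exact h0, by rw [e]; exact h1, ?_, ?_⟩
    · filter_upwards [h2, h'.filter_mono nhdsWithin_le_nhds] with s hs hs'
      rw [hs', hs, e]
    · filter_upwards [h3, h'.filter_mono nhdsWithin_le_nhds] with s hs hs'
      rw [hs', hs, e]

lemma Loc.reverse {γ : ℝ → S × ℂ × ℂ} {t : ℝ} (h : X.Loc γ t) :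
    X.Loc (fun r => flip (γ (-r))) (-t) := by
  rcases h with ⟨h1, h2⟩ | ⟨s, i, u, h0, h1, h2, h3⟩
  · refine Or.inl ⟨by simpa [flip] using h1, ?_⟩
    have h4 : Tendsto (fun r : ℝ => -r) (𝓝 (-t)) (𝓝 t) := by
      have := (continuous_neg (G := ℝ)).tendsto (-t)
      rwa [neg_neg] at this
    filter_upwards [h4.eventually h2] with r hr
    simp only [flip, neg_neg, hr]
    refine Prod.ext rfl (Prod.ext ?_ rfl)
    simp only [smul_neg, ← neg_smul]
    congr 2
    ring
  · refine Or.inr ⟨X.σ s i, i, -X.D s i u, ?_, ?_, ?_, ?_⟩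
    · rw [X.invol]
      simpa [flip] using h0.symm
    · rw [X.side_nb]
      simpa [flip] using h1
    · have h4 : Tendsto (fun r : ℝ => -r) (𝓝[<] (-t)) (𝓝[>] t) := by
        have := tendsto_neg_nhdsLT (a := -t)
        rwa [neg_neg] at this
      filter_upwards [h4.eventually h3] with r hr
      simp only [flip, neg_neg, hr]
      refine Prod.ext rfl (Prod.ext ?_ rfl)
      simp only [smul_neg, ← neg_smul]
      congr 2
      ring
    · have h4 : Tendsto (fun r : ℝ => -r) (𝓝[>] (-t)) (𝓝[<] t) := by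
        have := tendsto_neg_nhdsGT (a := -t)
        rwa [neg_neg] at this
      filter_upwards [h4.eventually h2] with r hr
      simp only [flip, neg_neg, hr]
      refine Prod.ext (X.invol s i).symm (Prod.ext ?_ ?_)
      · simp only [X.D_neg, X.D_D, smul_neg, ← neg_smul]
        congr 2
        ring
      · simp only [X.D_neg, X.D_D]

lemma Good.loc_interior {p : S × ℂ × ℂ} (h : X.Good p) {n : ℕ} {t : ℝ} (h1 : X.tt p n < t)
    (h2 : t < X.tt p (n + 1)) : X.Loc (X.fw p) t := by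
  left
  have h3 : X.tt p (n + 1) = X.tt p n + X.tau p n := tt_succ p n
  constructor
  · rw [h.fw_eq h1.le h2]
    exact Cx.E.mem_table X (h.sq n).adm (h.sq n).E (by linarith only [h1])
      (by change _ < X.tau p n; linarith only [h2, h3])
  · filter_upwards [Ioo_mem_nhds h1 h2] with r hr
    rw [h.fw_eq h1.le h2, h.fw_eq hr.1.le hr.2]
    refine Prod.ext rfl (Prod.ext ?_ rfl)
    simp only [add_assoc, ← add_smul]
    congr 2
    ring

lemma Good.loc_crossing {p : S × ℂ × ℂ} (h : X.Good p) (n : ℕ) :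
    X.Loc (X.fw p) (X.tt p (n + 1)) := by
  right
  have h3 : X.tt p (n + 1) = X.tt p n + X.tau p n := tt_succ p n
  have h4 : X.tt p n < X.tt p (n + 1) := h.tt_strictMono (Nat.lt_succ_self n)
  have h5 : X.tt p (n + 1) < X.tt p (n + 1 + 1) := h.tt_strictMono (Nat.lt_succ_self _)
  have h6 : X.fw p (X.tt p (n + 1)) = X.sq p (n + 1) := by
    rw [h.fw_eq le_rfl h5]; simp
  refine ⟨(X.sq p n).1, X.ex (X.sq p n), (X.sq p n).2.2, ?_, ?_, ?_, ?_⟩
  · right
    rw [h6]; rfl
  · rw [h6]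
    exact Cx.E.mem_side X (h.sq n).E
  · filter_upwards [Ioo_mem_nhdsLT h4] with r hr
    rw [h6, h.fw_eq hr.1.le hr.2]
    refine Prod.ext rfl (Prod.ext ?_ rfl)
    simp only [sq_succ_fst, add_assoc, ← add_smul]
    congr 2
    rw [h3]
    ring
  · filter_upwards [Ioo_mem_nhdsGT h5] with r hr
    rw [h6, h.fw_eq hr.1.le hr.2]
    rfl

lemma Good.loc_fw [Finite S] {p : S × ℂ × ℂ} (h : X.Good p) {t : ℝ} (ht : 0 < t) :
    X.Loc (X.fw p) t := by
  obtain ⟨n, h1, h2⟩ := h.exists_Ico ht.le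
  rcases h1.lt_or_eq with h3 | h3
  · exact h.loc_interior h3 h2
  · rcases n with _ | n
    · rw [tt_zero] at h3; exact absurd h3 ht.ne
    · rw [← h3]; exact h.loc_crossing n

/-- the trajectory of a phase point -/
noncomputable def traj (X : Cx S) (t : ℝ) (p : S × ℂ × ℂ) : S × ℂ × ℂ :=
  if 0 ≤ t then X.fw p t else flip (X.fw (flip p) (-t))

lemma Good.fw_small {p : S × ℂ × ℂ} (h : X.Good p) {t : ℝ} (ht : 0 ≤ t) (ht' : t < X.tau p 0) :
    X.fw p t = (p.1, p.2.1 + t • p.2.2, p.2.2) := by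
  have h1 : X.tt p (0 + 1) = X.tau p 0 := by rw [tt_succ, tt_zero, zero_add]
  rw [h.fw_eq (n := 0) (by rw [tt_zero]; exact ht) (by rw [h1]; exact ht'), tt_zero, sub_zero]
  rfl

lemma isTrajectory_traj [Finite S] {p : S × ℂ × ℂ} (hp : p.2.1 ∈ (X.T p.1).table)
    (h1 : X.Good p) (h2 : X.Good (flip p)) : X.IsTrajectory (fun t => X.traj t p) := by
  have h0 : X.traj 0 p = p := by
    rw [traj, if_pos le_rfl, h1.fw_small le_rfl (h1.tau_pos 0)]; simp
  intro t
  change X.Loc (fun t => X.traj t p) t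
  rcases lt_trichotomy t 0 with ht | ht | ht
  · have h3 : X.Loc (X.fw (flip p)) (-t) := h2.loc_fw (by linarith)
    have h4 := h3.reverse
    rw [neg_neg] at h4
    apply h4.congr
    filter_upwards [Iio_mem_nhds ht] with r hr
    rw [mem_Iio] at hr
    rw [traj, if_neg (by linarith)]
  · rw [ht]
    left
    refine ⟨by simp only [h0]; exact hp, ?_⟩
    have h3 : 0 < X.tau p 0 := h1.tau_pos 0
    have h4 : 0 < X.tau (flip p) 0 := h2.tau_pos 0
    filter_upwards [Ioo_mem_nhds (neg_neg_of_pos h4) h3] with r hr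
    simp only [h0]
    rw [traj]
    split_ifs with h5
    · rw [h1.fw_small h5 hr.2, sub_zero]
    · rw [h2.fw_small (by linarith) (by linarith [hr.1]), sub_zero]
      simp [flip]
  · apply (h1.loc_fw ht).congr
    filter_upwards [Ioi_mem_nhds ht] with r hr
    rw [mem_Ioi] at hr
    rw [traj, if_pos (by linarith)]

variable (X)

lemma ae_good (s : S) : ∀ᵐ p ∂((volume.restrict (X.T s).table).prod nu),
    p.1 ∈ (X.T s).table ∧ X.Good (s, p) ∧ X.Good (flip (s, p)) := by
  have h1 : ∀ᵐ p ∂((volume.restrict (X.T s).table).prod nu), p.1 ∈ (X.T s).table :=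
    Measure.quasiMeasurePreserving_fst.ae (ae_restrict_mem (X.T s).isOpen_table.measurableSet)
  have h2 : ∀ᵐ p ∂((volume.restrict (X.T s).table).prod nu), ‖p.2‖ = 1 :=
    Measure.quasiMeasurePreserving_snd.ae ae_norm
  filter_upwards [h1, h2, X.ae_reg s] with p h3 h4 h5
  exact ⟨h3, ⟨X.adm_of_mem_table (p := (s, p)) h3, h5.1, h4⟩,
    ⟨X.adm_of_mem_table (p := flip (s, p)) h3, h5.2, by
      change ‖-p.2‖ = 1
      rw [norm_neg, h4]⟩⟩

end Cx

end Vale.Agent.P099
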