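import Vale.Agent.P099.H504.Cx.Defs

set_option linter.all false

open MeasureTheory Set Filter Topology

namespace Vale.Agent.P099

namespace Cx

variable {S : Type} (X : Cx S)

/-- `γ t = (triangle, position, direction)`: straight motion at unit speed in the triangles; at an
open side the point passes to the neighbour with the same direction, or is reflected if the side is
a wall; for all times. -/
def IsTrajectory (γ : ℝ → S × ℂ × ℂ) : Prop :=
  ∀ t, ((γ t).2.1 ∈ (X.T (γ t).1).table ∧
      ∀ᶠ r in 𝓝 t, γ r = ((γ t).1, (γ t).2.1 + (r - t) • (γ t).2.2, (γ t).2.2)) ∨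
    ∃ s i u, ((γ t).1 = s ∨ (γ t).1 = X.σ s i) ∧ (γ t).2.1 ∈ (X.T s).side i ∧
      (∀ᶠ r in 𝓝[<] t, γ r = (s, (γ t).2.1 + (r - t) • u, u)) ∧
      (∀ᶠ r in 𝓝[>] t, γ r = (X.σ s i, (γ t).2.1 + (r - t) • X.D s i u, X.D s i u))

/-! ### sides and neighbours -/

/-- neighbours share the side -/
lemma side_nb (s : S) (i : Fin 3) : (X.T (X.σ s i)).side i = (X.T s).side i := by
  have h1 : (X.T (X.σ s i)).P (i + 1) = (X.T s).P (i + 1) :=
    X.glue s i (i + 1) ((show ∀ i : Fin 3, i + 1 ≠ i by decide) i)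
  have h2 : (X.T (X.σ s i)).P (i + 2) = (X.T s).P (i + 2) :=
    X.glue s i (i + 2) ((show ∀ i : Fin 3, i + 2 ≠ i by decide) i)
  rw [Triangle.side, Triangle.side, h1, h2]

/-- the crossing map fixes the side -/
lemma R_side {s : S} {i : Fin 3} {x : ℂ} (h : x ∈ (X.T s).side i) : X.R s i x = x :=
  X.R_of_lam_eq_zero (((X.T s).mem_side_iff i x).1 h).1

/-! ### translation in time -/

lemma IsTrajectory.shift {γ : ℝ → S × ℂ × ℂ} (hγ : X.IsTrajectory γ) (a : ℝ) :
    X.IsTrajectory (fun s => γ (s + a)) := by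
  intro t
  have h1 : Tendsto (fun s : ℝ => s + a) (𝓝 t) (𝓝 (t + a)) :=
    (continuous_id.add continuous_const).tendsto t
  have h2 : Tendsto (fun s : ℝ => s + a) (𝓝[<] t) (𝓝[<] (t + a)) :=
    tendsto_nhdsWithin_of_tendsto_nhds_of_eventually_within _
      (h1.mono_left nhdsWithin_le_nhds)
      (by
        filter_upwards [self_mem_nhdsWithin] with s hs
        have : s < t := hs
        show s + a < t + a
        linarith)
  have h3 : Tendsto (fun s : ℝ => s + a) (𝓝[>] t) (𝓝[>] (t + a)) :=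
    tendsto_nhdsWithin_of_tendsto_nhds_of_eventually_within _
      (h1.mono_left nhdsWithin_le_nhds)
      (by
        filter_upwards [self_mem_nhdsWithin] with s hs
        have : t < s := hs
        show t + a < s + a
        linarith)
  rcases hγ (t + a) with ⟨hT, hE⟩ | ⟨s, i, u, hs, hS, hL, hR⟩
  · refine Or.inl ⟨hT, ?_⟩
    filter_upwards [h1.eventually hE] with s hs
    rw [hs]
    congr 4
    ring
  · refine Or.inr ⟨s, i, u, hs, hS, ?_, ?_⟩
    · filter_upwards [h2.eventually hL] with s hs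
      rw [hs]
      congr 4
      ring
    · filter_upwards [h3.eventually hR] with s hs
      rw [hs]
      congr 4
      ring

/-- what happens at the end of a free flight -/
lemma IsTrajectory.step {γ : ℝ → S × ℂ × ℂ} (hγ : X.IsTrajectory γ) {a : S} {x u : ℂ} {s : ℝ}
    (hs : 0 < s) (hlt : ∀ r, 0 ≤ r → r < s → γ r = (a, x + r • u, u)) :
    (γ s = (a, x + s • u, u) ∧ x + s • u ∈ (X.T a).table ∧
      ∀ᶠ r in 𝓝 s, γ r = (a, x + r • u, u)) ∨
    ∃ i, (γ s).2.1 = x + s • u ∧ x + s • u ∈ (X.T a).side i ∧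
      ∀ᶠ r in 𝓝[>] s, γ r = (X.σ a i, x + s • u + (r - s) • X.D a i u, X.D a i u) := by
  have hev : ∀ᶠ r in 𝓝[<] s, γ r = (a, x + r • u, u) := by
    have : ∀ᶠ r in 𝓝[<] s, 0 < r :=
      nhdsWithin_le_nhds (lt_mem_nhds hs)
    filter_upwards [this, self_mem_nhdsWithin] with r hr hr'
    exact hlt r hr.le hr'
  rcases hγ s with ⟨hT, hE⟩ | ⟨b, i, u', hb, hS, hL, hR⟩
  · have hE' := hE.filter_mono (nhdsWithin_le_nhds (s := Iio s))
    obtain ⟨r, hr1, hr2⟩ := (hev.and hE').exists
    rw [hr1] at hr2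
    have e0 : a = (γ s).1 := congrArg Prod.fst hr2
    have e2 : u = (γ s).2.2 := congrArg (fun p => p.2.2) hr2
    have e1 : x + r • u = (γ s).2.1 + (r - s) • (γ s).2.2 := congrArg (fun p => p.2.1) hr2
    rw [← e2] at e1
    have e3 : (γ s).2.1 = x + s • u := by
      have : (γ s).2.1 = x + r • u - (r - s) • u := by rw [e1]; ring
      rw [this, sub_smul]
      ring
    refine Or.inl ⟨Prod.ext e0.symm (Prod.ext e3 e2.symm), ?_, ?_⟩
    · rw [← e0, e3] at hT
      exact hT
    · filter_upwards [hE] with r' hr'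
      rw [hr', e3, ← e2, ← e0]
      refine Prod.ext rfl (Prod.ext ?_ rfl)
      simp only [sub_smul]
      ring
  · obtain ⟨r, hr1, hr2⟩ := (hev.and hL).exists
    rw [hr1] at hr2
    have e0 : a = b := congrArg Prod.fst hr2
    have e2 : u = u' := congrArg (fun p => p.2.2) hr2
    have e1 : x + r • u = (γ s).2.1 + (r - s) • u' := congrArg (fun p => p.2.1) hr2
    subst e2
    subst e0
    have e3 : (γ s).2.1 = x + s • u := by
      have : (γ s).2.1 = x + r • u - (r - s) • u := by rw [e1]; ring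
      rw [this, sub_smul]
      ring
    refine Or.inr ⟨i, e3, e3 ▸ hS, ?_⟩
    filter_upwards [hR] with r' hr'
    rw [hr', e3]

/-- local consequence of the definition of a trajectory: free flight -/
lemma IsTrajectory.free {γ : ℝ → S × ℂ × ℂ} (hγ : X.IsTrajectory γ)
    (h0 : (γ 0).2.1 ∈ (X.T (γ 0).1).table)
    {t : ℝ} (ht : 0 ≤ t) (h : (γ 0).2.1 + t • (γ 0).2.2 ∈ (X.T (γ 0).1).table) :
    γ t = ((γ 0).1, (γ 0).2.1 + t • (γ 0).2.2, (γ 0).2.2) := by
  set a := (γ 0).1 with ha
  set x := (γ 0).2.1 with hx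
  set u := (γ 0).2.2 with hu
  have hin : ∀ s ∈ Icc (0:ℝ) t, x + s • u ∈ (X.T a).table := by
    intro s hs
    rcases ht.eq_or_lt with rfl | ht'
    · have : s = 0 := le_antisymm hs.2 hs.1
      subst this
      simpa using h0
    · have hc := (X.T a).convex_table h0 h (a := 1 - s / t) (b := s / t)
        (by have := div_le_one_of_le₀ hs.2 ht; linarith) (div_nonneg hs.1 ht) (by ring)
      have : (1 - s / t) • x + (s / t) • (x + t • u) = x + s • u := by
        have h1 : (s / t) • (t • u) = s • u := by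
          rw [smul_smul, div_mul_cancel₀ _ ht'.ne']
        rw [smul_add, h1, sub_smul, one_smul]
        ring
      rw [this] at hc
      exact hc
  have key : Icc (0:ℝ) t ⊆ {s | ∀ r, 0 ≤ r → r ≤ s → γ r = (a, x + r • u, u)} := by
    refine IsClosed.Icc_subset_of_forall_mem_nhdsWithin ?_ ?_ ?_
    · refine isClosed_of_closure_subset ?_
      intro s hs
      have hsI : s ∈ Icc (0:ℝ) t :=
        closure_minimal (inter_subset_right) isClosed_Icc hs
      refine ⟨?_, hsI⟩
      have hlt : ∀ r, 0 ≤ r → r < s → γ r = (a, x + r • u, u) := by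
        intro r hr0 hrs
        rw [mem_closure_iff] at hs
        obtain ⟨s', hs'1, hs'2⟩ := hs (Ioi r) isOpen_Ioi hrs
        exact hs'2.1 r hr0 (le_of_lt hs'1)
      intro r hr0 hrs
      rcases hrs.eq_or_lt with rfl | hrs'
      · rcases hr0.eq_or_lt with rfl | hr0'
        · simp [ha, hx, hu]
        · rcases IsTrajectory.step X hγ hr0' hlt with ⟨h1, _, _⟩ | ⟨i, _, h2, _⟩
          · exact h1
          · exact absurd h2 ((X.T a).not_mem_side_of_mem_table (hin _ hsI) i)
      · exact hlt r hr0 hrs'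
    · intro r hr0 hr
      have : r = 0 := le_antisymm hr hr0
      subst this
      simp only [ha, hx, hu, zero_smul, add_zero, Prod.mk.eta]
    · rintro s ⟨hsS, hs0, hst⟩
      have hev : ∀ᶠ r in 𝓝 s, γ r = (a, x + r • u, u) := by
        rcases hs0.eq_or_lt with rfl | hs0'
        · rcases hγ 0 with ⟨_, hE⟩ | ⟨b, i, u', hb, hS, _, _⟩
          · filter_upwards [hE] with r hr
            rw [hr]
            simp [ha, hx, hu]
          · exfalso
            rcases hb with hb | hb
            · rw [← hb] at hS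
              exact (X.T a).not_mem_side_of_mem_table h0 i hS
            · rw [← X.side_nb b i, ← hb] at hS
              exact (X.T a).not_mem_side_of_mem_table h0 i hS
        · rcases IsTrajectory.step X hγ hs0' (fun r h1 h2 => hsS r h1 h2.le) with
            ⟨_, _, h3⟩ | ⟨i, _, h2, _⟩
          · exact h3
          · exact absurd h2 ((X.T a).not_mem_side_of_mem_table (hin _ ⟨hs0, hst.le⟩) i)
      obtain ⟨ε, hε, hball⟩ := Metric.eventually_nhds_iff.1 hev
      have : Ioo s (s + ε) ∈ 𝓝[>] s := Ioo_mem_nhdsGT (by linarith)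
      filter_upwards [this] with r hr
      intro r' hr'0 hr'r
      rcases le_or_gt r' s with h1 | h1
      · exact hsS r' hr'0 h1
      · apply hball
        rw [Real.dist_eq, abs_of_pos (by linarith)]
        linarith [hr.2]
  exact key ⟨ht, le_rfl⟩ t ht le_rfl

/-- local consequence of the definition of a trajectory: one crossing -/
lemma IsTrajectory.cross {γ : ℝ → S × ℂ × ℂ} (hγ : X.IsTrajectory γ)
    (h0 : (γ 0).2.1 ∈ (X.T (γ 0).1).table)
    {t : ℝ} {i : Fin 3} (hE : (X.T (γ 0).1).E i (γ 0).2) (ht : (X.T (γ 0).1).hitT i (γ 0).2 < t)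
    (h : X.R (γ 0).1 i ((γ 0).2.1 + t • (γ 0).2.2) ∈ (X.T (X.σ (γ 0).1 i)).table) :
    γ t = (X.σ (γ 0).1 i, X.R (γ 0).1 i ((γ 0).2.1 + t • (γ 0).2.2),
      X.D (γ 0).1 i (γ 0).2.2) := by
  set a := (γ 0).1 with ha
  set x := (γ 0).2.1 with hx
  set u := (γ 0).2.2 with hu
  set τ := (X.T a).hitT i (γ 0).2 with hτ
  have hadm : (X.T a).Adm (γ 0).2 := (X.T a).adm_of_mem_table h0
  have hτ0 : 0 < τ := Triangle.E.hitT_pos (X.T a) hadm hE
  have hlt : ∀ r, 0 ≤ r → r < τ → γ r = (a, x + r • u, u) := by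
    intro r hr0 hr
    apply IsTrajectory.free X hγ h0 hr0
    rcases hr0.eq_or_lt with rfl | hr0'
    · simpa using h0
    · exact Triangle.E.mem_table (X.T a) hadm hE hr0' hr
  have hside : x + τ • u ∈ (X.T a).side i := Triangle.E.hit_mem_side (X.T a) hE
  have hside' : x + τ • u ∈ (X.T (X.σ a i)).side i := by rw [X.side_nb]; exact hside
  -- crossing formula
  have hRform : ∀ r : ℝ, X.R a i (x + r • u) = x + τ • u + (r - τ) • X.D a i u := by
    intro r
    have e1 : x + r • u = (x + τ • u) + (r - τ) • u := by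
      rw [sub_smul]; ring
    rw [e1, X.R_add, X.R_side hside, X.D_smul]
  rcases IsTrajectory.step X hγ hτ0 hlt with ⟨_, h2, _⟩ | ⟨j, _, h2, h3⟩
  · exact absurd hside ((X.T a).not_mem_side_of_mem_table h2 i)
  · have hij : j = i := (X.T a).side_unique h2 hside
    subst hij
    set b := X.σ a j with hb
    -- positions after the crossing are in the next triangle
    have hin : ∀ r, τ < r → r ≤ t → x + τ • u + (r - τ) • X.D a j u ∈ (X.T b).table := by
      intro r hr1 hr2
      rw [(X.T b).mem_table_iff]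
      intro k
      have hk1 : 0 ≤ (X.T b).lam k (x + τ • u) := by
        by_cases hkj : k = j
        · subst hkj
          exact le_of_eq (((X.T b).mem_side_iff _ _).1 hside').1.symm
        · exact ((((X.T b).mem_side_iff' j _).1 hside').2 k hkj).le
      have hk2 : 0 < (X.T b).lam k (x + τ • u + (t - τ) • X.D a j u) := by
        have := ((X.T b).mem_table_iff _).1 h k
        rwa [hRform t] at this
      rw [(X.T b).lam_add_smul] at hk2 ⊢
      have hpos : 0 < t - τ := by linarith only [ht]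
      have hr : 0 < r - τ := by linarith
      rcases le_or_gt 0 ((X.T b).ell k (X.D a j u)) with hc | hc
      · rcases hc.eq_or_lt with hc0 | hc0
        · rw [← hc0] at hk2 ⊢
          linarith only [hk2]
        · have := mul_pos hr hc0
          linarith only [hk1, this]
      · have : (t - τ) * (X.T b).ell k (X.D a j u) ≤ (r - τ) * (X.T b).ell k (X.D a j u) :=
          mul_le_mul_of_nonpos_right (by linarith) hc.le
        linarith only [hk2, this]
    -- choose a time just after the crossing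
    obtain ⟨s, hs1, hs2⟩ : ∃ s, γ s = (b, x + τ • u + (s - τ) • X.D a j u, X.D a j u) ∧
        s ∈ Ioo τ t :=
      (h3.and (Ioo_mem_nhdsGT ht)).exists
    have hshift := IsTrajectory.shift X hγ s
    have hs0 : (γ (0 + s)).1 = b := by
      rw [zero_add, hs1]
    have hs3 : (γ (0 + s)).2.1 = x + τ • u + (s - τ) • X.D a j u := by
      rw [zero_add, hs1]
    have hs4 : (γ (0 + s)).2.2 = X.D a j u := by
      rw [zero_add, hs1]
    have e0 : x + τ • u + (s - τ) • X.D a j u + (t - s) • X.D a j u =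
        x + τ • u + (t - τ) • X.D a j u := by
      simp only [sub_smul]
      ring
    have hfin := IsTrajectory.free X hshift (t := t - s) (by
        show (γ (0 + s)).2.1 ∈ (X.T (γ (0 + s)).1).table
        rw [hs3, hs0]; exact hin s hs2.1 hs2.2.le) (by linarith [hs2.2]) (by
        show (γ (0 + s)).2.1 + (t - s) • (γ (0 + s)).2.2 ∈ (X.T (γ (0 + s)).1).table
        rw [hs3, hs4, hs0, e0]
        exact hin t (by linarith only [ht]) le_rfl)
    have hfin' : γ (t - s + s) = ((γ (0 + s)).1, (γ (0 + s)).2.1 + (t - s) • (γ (0 + s)).2.2,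
      (γ (0 + s)).2.2) := hfin
    rw [hs3, hs4, hs0, e0, sub_add_cancel] at hfin'
    rw [hfin', hRform t]

/-! ### uniqueness of trajectories -/

lemma ray_eq {a b : S} {x y u v : ℂ} {r : ℝ} (h : (a, x + r • u, u) = (b, y + r • v, v)) :
    a = b ∧ x = y ∧ u = v := by
  rw [Prod.mk.injEq, Prod.mk.injEq] at h
  obtain ⟨h0, h1, h2⟩ := h
  subst h2
  exact ⟨h0, add_right_cancel h1, rfl⟩

/-- comparison of two trajectories at a time -/
lemma IsTrajectory.cmp {γ δ : ℝ → S × ℂ × ℂ} (hγ : X.IsTrajectory γ) (hδ : X.IsTrajectory δ)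
    (t : ℝ) :
    ((∀ᶠ s in 𝓝[>] t, γ s = δ s) ∧ (∀ᶠ s in 𝓝[<] t, γ s = δ s) ∧
      ((γ t).2.1 ∈ (X.T (γ t).1).table → γ t = δ t)) ∨
    ((∀ᶠ s in 𝓝[>] t, γ s ≠ δ s) ∧ (∀ᶠ s in 𝓝[<] t, γ s ≠ δ s)) := by
  rcases hγ t with ⟨hT, hE⟩ | ⟨a, i, u, ha, hS, hL, hR⟩
  · rcases hδ t with ⟨hT', hE'⟩ | ⟨b, j, v, hb, hS', hL', hR'⟩
    · by_cases hc : (γ t).1 = (δ t).1 ∧ (γ t).2.1 = (δ t).2.1 ∧ (γ t).2.2 = (δ t).2.2
      · left
        have h : ∀ᶠ s in 𝓝 t, γ s = δ s := by
          filter_upwards [hE, hE'] with s h1 h2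
          rw [h1, h2, hc.1, hc.2.1, hc.2.2]
        exact ⟨h.filter_mono nhdsWithin_le_nhds, h.filter_mono nhdsWithin_le_nhds,
          fun _ => Prod.ext hc.1 (Prod.ext hc.2.1 hc.2.2)⟩
      · right
        have h : ∀ᶠ s in 𝓝 t, γ s ≠ δ s := by
          filter_upwards [hE, hE'] with s h1 h2 h3
          rw [h1, h2] at h3
          exact hc (ray_eq h3)
        exact ⟨h.filter_mono nhdsWithin_le_nhds, h.filter_mono nhdsWithin_le_nhds⟩
    · right
      constructor
      · filter_upwards [hE.filter_mono nhdsWithin_le_nhds, hR'] with s h1 h2 h3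
        rw [h1, h2] at h3
        obtain ⟨h4, h5, -⟩ := ray_eq h3
        rw [h4, h5] at hT
        refine (X.T (X.σ b j)).not_mem_side_of_mem_table hT j ?_
        rw [X.side_nb]; exact hS'
      · filter_upwards [hE.filter_mono nhdsWithin_le_nhds, hL'] with s h1 h2 h3
        rw [h1, h2] at h3
        obtain ⟨h4, h5, -⟩ := ray_eq h3
        rw [h4, h5] at hT
        exact (X.T b).not_mem_side_of_mem_table hT j hS'
  · rcases hδ t with ⟨hT', hE'⟩ | ⟨b, j, v, hb, hS', hL', hR'⟩
    · right
      constructor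
      · filter_upwards [hR, hE'.filter_mono nhdsWithin_le_nhds] with s h1 h2 h3
        rw [h1, h2] at h3
        obtain ⟨h4, h5, -⟩ := ray_eq h3
        rw [← h4, ← h5] at hT'
        refine (X.T (X.σ a i)).not_mem_side_of_mem_table hT' i ?_
        rw [X.side_nb]; exact hS
      · filter_upwards [hL, hE'.filter_mono nhdsWithin_le_nhds] with s h1 h2 h3
        rw [h1, h2] at h3
        obtain ⟨h4, h5, -⟩ := ray_eq h3
        rw [← h4, ← h5] at hT'
        exact (X.T a).not_mem_side_of_mem_table hT' i hS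
    · by_cases hc : a = b ∧ (γ t).2.1 = (δ t).2.1 ∧ u = v
      · left
        obtain ⟨rfl, hc1, rfl⟩ := hc
        have hij : i = j := (X.T a).side_unique hS (hc1 ▸ hS')
        subst hij
        refine ⟨?_, ?_, ?_⟩
        · filter_upwards [hR, hR'] with s h1 h2
          rw [h1, h2, hc1]
        · filter_upwards [hL, hL'] with s h1 h2
          rw [h1, h2, hc1]
        · intro h
          exfalso
          rcases ha with ha | ha
          · rw [ha] at h
            exact (X.T a).not_mem_side_of_mem_table h i hS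
          · rw [ha] at h
            refine (X.T (X.σ a i)).not_mem_side_of_mem_table h i ?_
            rw [X.side_nb]; exact hS
      · right
        constructor
        · filter_upwards [hR, hR'] with s h1 h2 h3
          rw [h1, h2] at h3
          obtain ⟨h4, h5, h6⟩ := ray_eq h3
          have hS1 : (γ t).2.1 ∈ (X.T (X.σ a i)).side i := by rw [X.side_nb]; exact hS
          have hS2 : (γ t).2.1 ∈ (X.T (X.σ a i)).side j := by
            rw [h4, X.side_nb, h5]; exact hS'
          have hij : i = j := (X.T (X.σ a i)).side_unique hS1 hS2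
          subst hij
          have hab : a = b := by rw [← X.invol a i, h4, X.invol b i]
          subst hab
          apply hc
          refine ⟨rfl, h5, ?_⟩
          rw [← X.D_D a i u, h6, X.D_D]
        · filter_upwards [hL, hL'] with s h1 h2 h3
          rw [h1, h2] at h3
          exact hc (ray_eq h3)

/-- two trajectories which agree at a regular time agree at all regular times -/
lemma IsTrajectory.same {γ δ : ℝ → S × ℂ × ℂ} (hγ : X.IsTrajectory γ) (hδ : X.IsTrajectory δ)
    {a : ℝ} (ha : (γ a).2.1 ∈ (X.T (γ a).1).table) (hae : γ a = δ a) {t : ℝ}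
    (ht : (γ t).2.1 ∈ (X.T (γ t).1).table) : γ t = δ t := by
  -- the good times
  set A : Set ℝ := {t | ∀ᶠ s in 𝓝[>] t, γ s = δ s} with hA
  have key1 : ∀ t ∈ A, (∀ᶠ s in 𝓝[<] t, γ s = δ s) ∧
      ((γ t).2.1 ∈ (X.T (γ t).1).table → γ t = δ t) := by
    intro t ht
    rcases IsTrajectory.cmp X hγ hδ t with h | h
    · exact h.2
    · exfalso
      obtain ⟨s, h1, h2⟩ := (h.1.and ht).exists
      exact h1 h2
  have key2 : ∀ t ∉ A, (∀ᶠ s in 𝓝[>] t, γ s ≠ δ s) ∧ (∀ᶠ s in 𝓝[<] t, γ s ≠ δ s) := by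
    intro t ht
    rcases IsTrajectory.cmp X hγ hδ t with h | h
    · exact absurd h.1 ht
    · exact h
  have hclopen : IsClopen A := by
    constructor
    · rw [← isOpen_compl_iff, isOpen_iff_mem_nhds]
      intro t ht
      obtain ⟨h1, h2⟩ := key2 t ht
      obtain ⟨b, hb, hb'⟩ := mem_nhdsGT_iff_exists_Ioo_subset.1 h1
      obtain ⟨c, hc, hc'⟩ := mem_nhdsLT_iff_exists_Ioo_subset.1 h2
      rw [mem_Ioi] at hb
      rw [mem_Iio] at hc
      filter_upwards [Ioo_mem_nhds hc hb] with s hs
      rcases lt_trichotomy s t with h | h | h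
      · intro hsA
        have h3 : ∀ᶠ r in 𝓝[>] s, r ∈ Ioo c t := nhdsWithin_le_nhds (Ioo_mem_nhds hs.1 h)
        obtain ⟨r, h4, h5⟩ := (Eventually.and (show ∀ᶠ r in 𝓝[>] s, γ r = δ r from hsA) h3).exists
        exact hc' h5 h4
      · rw [h]; exact ht
      · intro hsA
        have h3 : ∀ᶠ r in 𝓝[>] s, r ∈ Ioo t b := nhdsWithin_le_nhds (Ioo_mem_nhds h hs.2)
        obtain ⟨r, h4, h5⟩ := (Eventually.and (show ∀ᶠ r in 𝓝[>] s, γ r = δ r from hsA) h3).exists
        exact hb' h5 h4
    · rw [isOpen_iff_mem_nhds]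
      intro t ht
      obtain ⟨h2, -⟩ := key1 t ht
      obtain ⟨b, hb, hb'⟩ := mem_nhdsGT_iff_exists_Ioo_subset.1 ht
      obtain ⟨c, hc, hc'⟩ := mem_nhdsLT_iff_exists_Ioo_subset.1 h2
      rw [mem_Ioi] at hb
      rw [mem_Iio] at hc
      filter_upwards [Ioo_mem_nhds hc hb] with s hs
      rcases lt_trichotomy s t with h | h | h
      · have h3 : ∀ᶠ r in 𝓝[>] s, r ∈ Ioo c t := nhdsWithin_le_nhds (Ioo_mem_nhds hs.1 h)
        filter_upwards [h3] with r hr
        exact hc' hr
      · rw [h]; exact ht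
      · have h3 : ∀ᶠ r in 𝓝[>] s, r ∈ Ioo t b := nhdsWithin_le_nhds (Ioo_mem_nhds h hs.2)
        filter_upwards [h3] with r hr
        exact hb' hr
  have haA : a ∈ A := by
    by_contra hne
    rcases IsTrajectory.cmp X hγ hδ a with h | h
    · exact hne h.1
    · have hex : ∀ {γ : ℝ → S × ℂ × ℂ}, X.IsTrajectory γ → (γ a).2.1 ∈ (X.T (γ a).1).table →
          ∀ᶠ r in 𝓝 a, γ r = ((γ a).1, (γ a).2.1 + (r - a) • (γ a).2.2, (γ a).2.2) := by
        intro γ hγ ha
        rcases hγ a with ⟨_, hE⟩ | ⟨b, i, u, hb, hS, _⟩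
        · exact hE
        · exfalso
          rcases hb with hb | hb
          · rw [hb] at ha
            exact (X.T b).not_mem_side_of_mem_table ha i hS
          · rw [hb] at ha
            refine (X.T (X.σ b i)).not_mem_side_of_mem_table ha i ?_
            rw [X.side_nb]; exact hS
      have h3 : ∀ᶠ s in 𝓝[>] a, γ s = δ s := by
        filter_upwards [(hex hγ ha).filter_mono nhdsWithin_le_nhds,
          (hex hδ (hae ▸ ha)).filter_mono nhdsWithin_le_nhds] with s h1 h2
        rw [h1, h2, hae]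
      exact hne h3
  have hAu : A = univ := by
    rcases isClopen_iff.1 hclopen with h | h
    · rw [h] at haA; exact absurd haA (notMem_empty _)
    · exact h
  have htA : t ∈ A := by rw [hAu]; trivial
  exact (key1 t htA).2 ht

end Cx

end Vale.Agent.P099
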